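import Mathlib
import Vale.Agent.P078.Type3.GraphDefs

/-! Graph operators on the lifted space `Ω × ℝ`, as operators on finitely supported vectors. -/

noncomputable section

open Classical
open scoped BoundedContinuousFunction InnerProductSpace

set_option linter.unusedSectionVars false

namespace Vale.Agent.P078.T3.Rank

universe u v

variable {M : Type u} [CStarAlgebra M] [PartialOrder M] [StarOrderedRing M]
  {Ω : Type v} [TopologicalSpace Ω] [CompactSpace Ω] [T2Space Ω]


/-! ### the lifted translations -/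

variable {T : SMasa M Ω}

/-- the translation of `g` on the lifted space -/
def phi (g : GElt T) : C(Ω × ℝ, Ω × ℝ) :=
  ⟨fun x => (g.toDom x.1, x.2 - Real.log (g.dens x.1)), by
    refine (g.toDom.continuous.comp continuous_fst).prodMk (continuous_snd.sub ?_)
    exact ((g.dens.continuous.comp continuous_fst).log fun x => (g.dens_pos x.1).ne')⟩

@[simp] lemma phi_fst (g : GElt T) (x : Ω × ℝ) : (phi g x).1 = g.toDom x.1 := rfl
@[simp] lemma phi_snd (g : GElt T) (x : Ω × ℝ) :
    (phi g x).2 = x.2 - Real.log (g.dens x.1) := rfl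

lemma phi_phi_inv (g : GElt T) {y : Ω × ℝ} (hy : g.dom y.1 = 1) : phi g (phi g.inv y) = y := by
  have h2 : g.dens' y.1 * g.dens (g.toRan y.1) = 1 := g.inv.dens_inv y.1 hy
  refine Prod.ext (g.toDom_toRan _ hy) ?_
  show y.2 - Real.log (g.dens' y.1) - Real.log (g.dens (g.toRan y.1)) = y.2
  have := Real.log_mul (g.dens'_pos y.1).ne' (g.dens_pos (g.toRan y.1)).ne'
  rw [h2, Real.log_one] at this
  linarith

lemma inv_inv' (g : GElt T) (x : Ω × ℝ) : phi g.inv.inv x = phi g x := rfl

lemma phi_inv_phi (g : GElt T) {x : Ω × ℝ} (hx : g.ran x.1 = 1) : phi g.inv (phi g x) = x :=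
  phi_phi_inv g.inv hx

lemma phi_eq_iff (g : GElt T) {x y : Ω × ℝ} :
    (g.dom y.1 = 1 ∧ phi g.inv y = x) ↔ (g.ran x.1 = 1 ∧ phi g x = y) := by
  constructor
  · rintro ⟨hy, rfl⟩
    exact ⟨g.ran_toRan _ hy, phi_phi_inv g hy⟩
  · rintro ⟨hx, rfl⟩
    exact ⟨g.dom_toDom _ hx, phi_inv_phi g hx⟩

lemma phi_mul (g h : GElt T) (x : Ω × ℝ) : phi (g.mul h) x = phi h (phi g x) := by
  refine Prod.ext rfl ?_
  show x.2 - Real.log (g.dens x.1 * h.dens (g.toDom x.1)) =
    x.2 - Real.log (g.dens x.1) - Real.log (h.dens (g.toDom x.1))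
  rw [Real.log_mul (g.dens_pos _).ne' (h.dens_pos _).ne']
  ring

lemma phi_mul_inv (g h : GElt T) (y : Ω × ℝ) :
    phi (g.mul h).inv y = phi g.inv (phi h.inv y) :=
  phi_mul h.inv g.inv y

lemma phi_one (x : Ω × ℝ) : phi (GElt.one T) x = x :=
  Prod.ext rfl (by simp [GElt.one])

lemma phi_one_inv (x : Ω × ℝ) : phi (GElt.one T).inv x = x :=
  Prod.ext rfl (by simp [GElt.one, GElt.inv])

/-! ### vectors -/

/-- finitely supported vectors on the lifted points with labels -/
def LVec (Ω : Type v) (ι : Type) : Type v := ((Ω × ℝ) × ι) →₀ ℝ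

instance (ι : Type) : AddCommGroup (LVec Ω ι) :=
  inferInstanceAs (AddCommGroup (((Ω × ℝ) × ι) →₀ ℝ))

instance (ι : Type) : Module ℝ (LVec Ω ι) :=
  inferInstanceAs (Module ℝ (((Ω × ℝ) × ι) →₀ ℝ))

/-- the coefficient of a vector at a point -/
def LVec.coef {ι : Type} (p : (Ω × ℝ) × ι) : LVec Ω ι →ₗ[ℝ] ℝ := Finsupp.lapply p

/-- a basis vector -/
def del {ι : Type} (p : (Ω × ℝ) × ι) (c : ℝ) : LVec Ω ι := Finsupp.single p c

/-- the dot product -/
def dot {ι : Type} (f g : LVec Ω ι) : ℝ :=
  Finsupp.sum (show ((Ω × ℝ) × ι) →₀ ℝ from f) fun p a => a * LVec.coef p g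

lemma dot_eq_sum {ι : Type} (f g : LVec Ω ι) {s : Finset ((Ω × ℝ) × ι)}
    (hs : (show ((Ω × ℝ) × ι) →₀ ℝ from f).support ⊆ s) :
    dot f g = ∑ p ∈ s, LVec.coef p f * LVec.coef p g :=
  Finsupp.sum_of_support_subset (show ((Ω × ℝ) × ι) →₀ ℝ from f) hs _ fun p _ => by simp

lemma dot_comm {ι : Type} (f g : LVec Ω ι) : dot f g = dot g f := by
  rw [dot_eq_sum f g Finset.subset_union_left, dot_eq_sum g f Finset.subset_union_right]
  exact Finset.sum_congr rfl fun p _ => mul_comm _ _

lemma dot_add_left {ι : Type} (f g h : LVec Ω ι) : dot (f + g) h = dot f h + dot g h :=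
  Finsupp.sum_add_index' (fun p => by simp) (fun p a b => add_mul a b _)

lemma dot_smul_left {ι : Type} (c : ℝ) (f h : LVec Ω ι) : dot (c • f) h = c * dot f h := by
  show Finsupp.sum (c • (show ((Ω × ℝ) × ι) →₀ ℝ from f)) _ = _
  rw [Finsupp.sum_smul_index (fun p => by simp), dot, Finsupp.mul_sum]
  exact Finsupp.sum_congr fun p _ => by ring

instance instCore (ι : Type) : InnerProductSpace.Core ℝ (LVec Ω ι) where
  inner := dot
  conj_inner_symm f g := by simpa using dot_comm g f
  re_inner_nonneg f := by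
    simp only [RCLike.re_to_real]
    rw [dot_eq_sum f f (Finset.Subset.refl _)]
    exact Finset.sum_nonneg fun p _ => mul_self_nonneg _
  add_left := dot_add_left
  smul_left f g c := by simpa using dot_smul_left c f g
  definite f hf := by
    change dot f f = 0 at hf
    rw [dot_eq_sum f f (Finset.Subset.refl _)] at hf
    refine Finsupp.ext fun p => ?_
    by_cases hp : p ∈ (show ((Ω × ℝ) × ι) →₀ ℝ from f).support
    · exact mul_self_eq_zero.1
        ((Finset.sum_eq_zero_iff_of_nonneg fun q _ => mul_self_nonneg _).1 hf p hp)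
    · exact Finsupp.notMem_support_iff.1 hp

instance (ι : Type) : NormedAddCommGroup (LVec Ω ι) :=
  @InnerProductSpace.Core.toNormedAddCommGroup ℝ (LVec Ω ι) _ _ _ (instCore ι)

instance (ι : Type) : InnerProductSpace ℝ (LVec Ω ι) :=
  InnerProductSpace.ofCore (instCore ι).toCore

variable {ι κ lab : Type}

lemma inner_eq_dot (f g : LVec Ω ι) : ⟪f, g⟫_ℝ = dot f g := rfl

lemma inner_del (p : (Ω × ℝ) × ι) (c : ℝ) (g : LVec Ω ι) :
    ⟪del p c, g⟫_ℝ = c * LVec.coef p g :=
  Finsupp.sum_single_index (h := fun q a => a * LVec.coef q g) (by simp)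

lemma coef_del (p q : (Ω × ℝ) × ι) (c : ℝ) :
    LVec.coef q (del p c) = if p = q then c else 0 :=
  Finsupp.single_apply

lemma inner_del_del (p q : (Ω × ℝ) × ι) (a b : ℝ) :
    ⟪del p a, del q b⟫_ℝ = if q = p then a * b else 0 := by
  rw [inner_del, coef_del]; split <;> simp

@[elab_as_elim]
lemma LVec.induction {P : LVec Ω ι → Prop} (f : LVec Ω ι) (h0 : P 0)
    (hadd : ∀ f g, P f → P g → P (f + g)) (hdel : ∀ p c, P (del p c)) : P f :=
  Finsupp.induction_linear (show ((Ω × ℝ) × ι) →₀ ℝ from f) h0 hadd hdel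

lemma lhom_ext {W : Type*} [AddCommGroup W] [Module ℝ W] {A B : LVec Ω ι →ₗ[ℝ] W}
    (h : ∀ p c, A (del p c) = B (del p c)) : A = B :=
  LinearMap.ext fun f => LVec.induction f (by simp)
    (fun f g hf hg => by rw [map_add, map_add, hf, hg]) h

/-! ### operators -/

/-- a weighted translation on the lifted space -/
structure LTerm (T : SMasa M Ω) (ι κ : Type) where
  row : ι
  col : κ
  coef : (Ω × ℝ) →ᵇ ℝ
  g : GElt T

/-- a lifted graph operator -/
abbrev LOp (T : SMasa M Ω) (ι κ : Type) := List (LTerm T ι κ)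

/-- the image of a point under a term -/
def LTerm.img (t : LTerm T ι κ) (q : (Ω × ℝ) × κ) : LVec Ω ι :=
  if t.col = q.2 ∧ t.g.dom q.1.1 = 1 then
    del (phi t.g.inv q.1, t.row) (t.coef (phi t.g.inv q.1)) else 0

/-- the operator of a list -/
def op (L : LOp T ι κ) : LVec Ω κ →ₗ[ℝ] LVec Ω ι :=
  Finsupp.linearCombination ℝ fun q => (L.map fun t => t.img q).sum

lemma op_del (L : LOp T ι κ) (q : (Ω × ℝ) × κ) (c : ℝ) :
    op L (del q c) = c • (L.map fun t => t.img q).sum :=
  Finsupp.linearCombination_single _ _ _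

lemma op_nil : op ([] : LOp T ι κ) = 0 :=
  lhom_ext fun p c => by rw [op_del]; simp

lemma op_append (L L' : LOp T ι κ) : op (L ++ L') = op L + op L' :=
  lhom_ext fun p c => by simp [op_del]

lemma op_cons (t : LTerm T ι κ) (L : LOp T ι κ) : op (t :: L) = op [t] + op L :=
  op_append [t] L

/-- scalar multiple -/
def lsmul (c : ℝ) (L : LOp T ι κ) : LOp T ι κ := L.map fun t => { t with coef := c • t.coef }

lemma op_lsmul (c : ℝ) (L : LOp T ι κ) : op (lsmul c L) = c • op L := by
  refine lhom_ext fun p a => ?_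
  simp only [op_del, LinearMap.smul_apply, lsmul, List.map_map]
  rw [smul_comm c a]
  congr 1
  rw [List.smul_sum, List.map_map]
  refine congrArg _ (List.map_congr_left fun t _ => ?_)
  simp only [Function.comp_apply, LTerm.img, BoundedContinuousFunction.coe_smul]
  split
  · exact (Finsupp.smul_single c _ _).symm
  · simp

/-- the transpose -/
def ltp (L : LOp T ι κ) : LOp T κ ι :=
  L.map fun t => ⟨t.col, t.row, t.coef.compContinuous (phi t.g.inv), t.g.inv⟩

lemma op_ltp (L : LOp T ι κ) (f : LVec Ω κ) (h : LVec Ω ι) :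
    ⟪op L f, h⟫_ℝ = ⟪f, op (ltp L) h⟫_ℝ := by
  induction f using LVec.induction with
  | h0 => simp
  | hadd f g hf hg => rw [map_add, inner_add_left, inner_add_left, hf, hg]
  | hdel q c =>
    induction h using LVec.induction with
    | h0 => simp
    | hadd f g hf hg => rw [map_add, inner_add_right, inner_add_right, hf, hg]
    | hdel p a =>
      rw [op_del, op_del, real_inner_smul_left, real_inner_smul_right, ltp, List.map_map]
      have key : ∀ t : LTerm T ι κ, c * ⟪t.img q, del p a⟫_ℝ = a * ⟪del q c,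
          LTerm.img (⟨t.col, t.row, t.coef.compContinuous (phi t.g.inv), t.g.inv⟩ :
            LTerm T κ ι) p⟫_ℝ := by
        intro t
        simp only [LTerm.img, BoundedContinuousFunction.compContinuous_apply, inv_inv']
        by_cases h1 : (t.col = q.2 ∧ t.g.dom q.1.1 = 1) ∧ (phi t.g.inv q.1, t.row) = p
        · obtain ⟨⟨hc, hd⟩, hp⟩ := h1
          obtain ⟨hr, hpe⟩ := (phi_eq_iff t.g).1 ⟨hd, congrArg Prod.fst hp⟩
          rw [if_pos ⟨hc, hd⟩, if_pos ⟨congrArg Prod.snd hp, hr⟩, inner_del_del, inner_del_del,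
            if_pos hp.symm, if_pos (show (phi t.g p.1, t.col) = q from Prod.ext hpe hc),
            show phi t.g.inv (phi t.g p.1) = p.1 from phi_inv_phi _ hr, ← congrArg Prod.fst hp]
          ring
        · have h2 : ¬((t.row = p.2 ∧ t.g.ran p.1.1 = 1) ∧ (phi t.g p.1, t.col) = q) := by
            rintro ⟨⟨hr, hran⟩, hq⟩
            obtain ⟨hd, hi⟩ := (phi_eq_iff t.g).2 ⟨hran, congrArg Prod.fst hq⟩
            exact h1 ⟨⟨congrArg Prod.snd hq, hd⟩, Prod.ext hi hr⟩
          have e1 : ⟪(if t.col = q.2 ∧ t.g.dom q.1.1 = 1 then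
              del (phi t.g.inv q.1, t.row) (t.coef (phi t.g.inv q.1)) else 0), del p a⟫_ℝ = 0 := by
            split
            · rename_i h3
              rw [inner_del_del, if_neg fun h => h1 ⟨h3, h.symm⟩]
            · simp
          have e2 : ⟪del q c, (if t.row = p.2 ∧ t.g.inv.dom p.1.1 = 1 then
              del (phi t.g p.1, t.col) (t.coef (phi t.g.inv (phi t.g p.1))) else 0)⟫_ℝ = 0 := by
            split
            · rename_i h3
              rw [inner_del_del, if_neg fun h => h2 ⟨h3, h⟩]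
            · simp
          rw [e1, e2, mul_zero, mul_zero]
      induction L with
      | nil => simp
      | cons t L ih =>
        simp only [List.map_cons, List.sum_cons, Function.comp_apply, inner_add_left,
          inner_add_right, mul_add]
        rw [key t, ih]

/-- the product -/
def lmul (S : LOp T ι κ) (R : LOp T κ lab) : LOp T ι lab :=
  S.flatMap fun s => R.filterMap fun t => if s.col = t.row then
    some ⟨s.row, t.col, s.coef * t.coef.compContinuous (phi s.g), s.g.mul t.g⟩ else none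

lemma op_lmul_aux (s : LTerm T ι κ) (t : LTerm T κ lab) (q : (Ω × ℝ) × lab) (h : s.col = t.row) :
    op [s] (t.img q) = LTerm.img
      (⟨s.row, t.col, s.coef * t.coef.compContinuous (phi s.g), s.g.mul t.g⟩ : LTerm T ι lab) q := by
  simp only [LTerm.img]
  have hmul : (s.g.mul t.g).dom q.1.1 = t.g.dom q.1.1 * s.g.dom (phi t.g.inv q.1).1 := rfl
  by_cases h1 : t.col = q.2 ∧ t.g.dom q.1.1 = 1
  · rw [if_pos h1, op_del]
    simp only [List.map_cons, List.map_nil, List.sum_cons, List.sum_nil, add_zero, LTerm.img, h,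
      true_and]
    rw [hmul, h1.2, one_mul]
    by_cases h2 : s.g.dom (phi t.g.inv q.1).1 = 1
    · rw [if_pos h2, if_pos ⟨h1.1, h2⟩, phi_mul_inv, BoundedContinuousFunction.coe_mul,
        Pi.mul_apply, BoundedContinuousFunction.compContinuous_apply, phi_phi_inv s.g h2]
      exact (Finsupp.smul_single _ _ _).trans (by rw [smul_eq_mul, mul_comm]; rfl)
    · rw [if_neg h2, if_neg fun h' => h2 h'.2, smul_zero]
  · rw [if_neg h1, map_zero, if_neg]
    rintro ⟨hc, hd⟩
    refine h1 ⟨hc, ?_⟩
    rcases idem_zero_or_one t.g.dom_idem q.1.1 with h0 | h0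
    · rw [hmul, h0, zero_mul] at hd; exact absurd hd zero_ne_one
    · exact h0

lemma op_lmul (S : LOp T ι κ) (R : LOp T κ lab) : op (lmul S R) = op S ∘ₗ op R := by
  induction S with
  | nil => simp [lmul, op_nil]
  | cons s S ih =>
    rw [op_cons s S, LinearMap.add_comp, ← ih]
    simp only [lmul, List.flatMap_cons, op_append]
    congr 1
    clear ih
    induction R with
    | nil => simp [op_nil]
    | cons t R ihR =>
      rw [op_cons t R, LinearMap.comp_add, ← ihR]
      have e : op [s] ∘ₗ op [t] = if s.col = t.row then op [(⟨s.row, t.col,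
          s.coef * t.coef.compContinuous (phi s.g), s.g.mul t.g⟩ : LTerm T ι lab)] else 0 := by
        refine lhom_ext fun q c => ?_
        rw [LinearMap.comp_apply, op_del]
        simp only [List.map_cons, List.map_nil, List.sum_cons, List.sum_nil, add_zero, map_smul]
        split
        · rename_i h
          rw [op_lmul_aux s t q h, op_del]
          simp
        · rename_i h
          simp only [LinearMap.zero_apply]
          simp only [LTerm.img]
          split
          · rw [op_del]
            simp [LTerm.img, h]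
          · simp
      rw [e, List.filterMap_cons]
      split
      · rename_i h
        simp only [ite_eq_right_iff, reduceCtorEq, imp_false] at h
        rw [if_neg h, zero_add]
      · rename_i b h
        by_cases h2 : s.col = t.row
        · rw [if_pos h2] at h ⊢
          cases h
          exact op_cons _ _
        · simp [h2] at h

/-- multiplication operators -/
def ldiag [Fintype ι] (f : ι → (Ω × ℝ) →ᵇ ℝ) : LOp T ι ι :=
  (Finset.univ : Finset ι).toList.map fun i => ⟨i, i, f i, GElt.one T⟩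

lemma op_ldiag [Fintype ι] (f : ι → (Ω × ℝ) →ᵇ ℝ) (q : (Ω × ℝ) × ι) (c : ℝ) :
    op (ldiag (T := T) f) (del q c) = f q.2 q.1 • del q c := by
  rw [op_del, ldiag, List.map_map, Finset.sum_map_toList, Finset.sum_eq_single q.2]
  · simp only [Function.comp_apply, LTerm.img]
    rw [if_pos ⟨trivial, rfl⟩, phi_one_inv]
    exact (Finsupp.smul_single _ _ _).trans ((Finsupp.smul_single _ _ _).trans
      (congrArg _ (mul_comm _ _))).symm
  · intro i _ hi
    simp [LTerm.img, hi]
  · simp

lemma op_ldiag_one [Fintype ι] : op (ldiag (T := T) fun _ : ι => 1) = LinearMap.id :=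
  lhom_ext fun p c => by rw [op_ldiag]; simp

/-- powers of `1` -/
lemma exists_aeval [Fintype ι] (A : LOp T ι ι) (p : Polynomial ℝ) :
    ∃ L : LOp T ι ι, op L = Polynomial.aeval (op A : Module.End ℝ (LVec Ω ι)) p := by
  induction p using Polynomial.induction_on' with
  | add p q hp hq =>
    obtain ⟨L, hL⟩ := hp
    obtain ⟨L', hL'⟩ := hq
    exact ⟨L ++ L', by rw [op_append, hL, hL', map_add]⟩
  | monomial n c =>
    obtain ⟨L, hL⟩ : ∃ L : LOp T ι ι, op L = (op A : Module.End ℝ (LVec Ω ι)) ^ n := by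
      induction n with
      | zero => exact ⟨_, op_ldiag_one⟩
      | succ n ih =>
        obtain ⟨L, hL⟩ := ih
        exact ⟨lmul L A, by rw [op_lmul, hL, pow_succ]; rfl⟩
    refine ⟨lsmul c L, ?_⟩
    rw [op_lsmul, hL, Polynomial.aeval_monomial, Algebra.algebraMap_eq_smul_one, smul_one_mul]

/-- an upper bound for the norm of an operator -/
def bnd (L : LOp T ι κ) : ℝ := (L.map fun t => ‖t.coef‖).sum

lemma bnd_nonneg (L : LOp T ι κ) : 0 ≤ bnd L :=
  List.sum_nonneg fun x hx => by
    obtain ⟨t, -, rfl⟩ := List.mem_map.1 hx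
    exact norm_nonneg _

lemma norm_del (p : (Ω × ℝ) × ι) (c : ℝ) : ‖del p c‖ = |c| := by
  rw [norm_eq_sqrt_real_inner, inner_del_del, if_pos rfl, Real.sqrt_mul_self_eq_abs]

lemma norm_op_del_le (L : LOp T ι κ) (q : (Ω × ℝ) × κ) : ‖op L (del q 1)‖ ≤ bnd L := by
  rw [op_del, one_smul]
  induction L with
  | nil => simp [bnd]
  | cons t L ih =>
    simp only [List.map_cons, List.sum_cons, bnd] at ih ⊢
    refine (norm_add_le _ _).trans (add_le_add ?_ ih)
    simp only [LTerm.img]
    split
    · rw [norm_del, ← Real.norm_eq_abs]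
      exact t.coef.norm_coe_le_norm _
    · simp

end Vale.Agent.P078.T3.Rank
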