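import Mathlib
import Vale.Agent.P078.Type3.Specs
import Vale.Agent.P078.Type3.Rank.Lift

/-! The lift of a graph operator and the transfer of its kernel. -/

noncomputable section

open Classical
open scoped BoundedContinuousFunction InnerProductSpace

set_option linter.unusedSectionVars false

namespace Vale.Agent.P078.T3.Rank

universe u v

variable {M : Type u} [CStarAlgebra M] [PartialOrder M] [StarOrderedRing M]
  {Ω : Type v} [TopologicalSpace Ω] [CompactSpace Ω] [T2Space Ω]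


variable {T : SMasa M Ω} {ι κ lab : Type}

/-! ### the orbits of the lifted space -/

/-- two lifted points of one orbit -/
def Rel (T : SMasa M Ω) (x y : Ω × ℝ) : Prop := ∃ g : GElt T, g.ran x.1 = 1 ∧ phi g x = y

lemma Rel.refl (x : Ω × ℝ) : Rel T x x := ⟨GElt.one T, rfl, phi_one x⟩

lemma Rel.symm {x y : Ω × ℝ} : Rel T x y → Rel T y x := by
  rintro ⟨g, hg, rfl⟩
  exact ⟨g.inv, g.dom_toDom _ hg, phi_inv_phi g hg⟩

lemma Rel.trans {x y z : Ω × ℝ} : Rel T x y → Rel T y z → Rel T x z := by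
  rintro ⟨g, hg, rfl⟩ ⟨h, hh, rfl⟩
  refine ⟨g.mul h, ?_, phi_mul g h x⟩
  show g.ran x.1 * h.ran (g.toDom x.1) = 1
  rw [hg, ← phi_fst g x, hh, mul_one]

lemma Rel.eq_of_fst (hD : DensSpec T) {x y : Ω × ℝ} (h : Rel T x y) (he : x.1 = y.1) : x = y := by
  obtain ⟨g, hg, rfl⟩ := h
  refine Prod.ext he ?_
  have hd : g.dens x.1 = 1 := hD g (GElt.one T) x.1 hg rfl he.symm
  simp [phi_snd, hd]

lemma Rel.phi_eq (hD : DensSpec T) {x y : Ω × ℝ} (h : Rel T x y) {g : GElt T} (hg : g.ran x.1 = 1)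
    (he : g.toDom x.1 = y.1) : phi g x = y :=
  Rel.eq_of_fst hD ((Rel.symm ⟨g, hg, rfl⟩).trans h) he

/-- the orbit relation -/
def orbitSetoid (T : SMasa M Ω) : Setoid (Ω × ℝ) :=
  ⟨Rel T, ⟨Rel.refl, Rel.symm, Rel.trans⟩⟩

/-! ### lifts -/

/-- a function of the point as a function on the lifted space -/
def lc (f : C(Ω, ℝ)) : (Ω × ℝ) →ᵇ ℝ :=
  (BoundedContinuousFunction.mkOfCompact f).compContinuous ⟨Prod.fst, continuous_fst⟩

@[simp] lemma lc_apply (f : C(Ω, ℝ)) (x : Ω × ℝ) : lc f x = f x.1 := rfl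

/-- the lift of one term -/
def liftTerm (t : Term T ι κ) : LTerm T ι κ := ⟨t.row, t.col, lc t.coef, t.g⟩

/-- the lift of a graph operator -/
def lift (S : GOp T ι κ) : LOp T ι κ := S.map liftTerm

lemma lift_add (S R : GOp T ι κ) : lift (S.add R) = lift S ++ lift R := List.map_append

lemma lift_smul (c : ℝ) (S : GOp T ι κ) : lift (S.smul c) = lsmul c (lift S) := by
  simp only [lift, GOp.smul, lsmul, List.map_map]
  exact List.map_congr_left fun t _ => rfl

lemma lift_tp (S : GOp T ι κ) : lift S.tp = ltp (lift S) := by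
  simp only [lift, GOp.tp, ltp, List.map_map]
  exact List.map_congr_left fun t _ => rfl

lemma lift_mul (S : GOp T ι κ) (R : GOp T κ lab) : lift (S.mul R) = lmul (lift S) (lift R) := by
  simp only [lift, GOp.mul, lmul, List.map_flatMap, List.flatMap_map, List.map_filterMap,
    List.filterMap_map]
  refine congrArg (fun F => List.flatMap F S) (funext fun s => ?_)
  refine List.filterMap_congr fun t _ => ?_
  by_cases h : s.col = t.row <;> simp [liftTerm, h]
  ext x
  rfl

lemma lift_diag [Fintype ι] (f : ι → C(Ω, ℝ)) :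
    lift (GOp.diag (T := T) f) = ldiag fun i => lc (f i) := by
  simp only [lift, GOp.diag, ldiag, List.map_map]
  exact List.map_congr_left fun t _ => rfl

lemma op_lift_one [Fintype ι] :
    op (lift (GOp.diag (T := T) fun _ : ι => 1)) = LinearMap.id := by
  rw [lift_diag]
  refine Eq.trans ?_ (op_ldiag_one (T := T))
  exact congrArg op (congrArg ldiag (funext fun _ => by ext x; rfl))

lemma op_lift_pow [Fintype ι] (S : GOp T ι ι) (n : ℕ) :
    op (lift (S.pow n)) = (op (lift S) : Module.End ℝ (LVec Ω ι)) ^ n := by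
  induction n with
  | zero => exact op_lift_one
  | succ n ih =>
    rw [GOp.pow, lift_mul, op_lmul, ih, pow_succ']
    rfl

/-! ### kernels -/

lemma inner_op_del (L : LOp T ι κ) (p : (Ω × ℝ) × ι) (q : (Ω × ℝ) × κ) :
    ⟪del p 1, op L (del q 1)⟫_ℝ = (L.map fun t =>
      if t.row = p.2 ∧ t.col = q.2 ∧ t.g.ran p.1.1 = 1 ∧ phi t.g p.1 = q.1
      then t.coef p.1 else 0).sum := by
  rw [op_del, one_smul]
  induction L with
  | nil => simp
  | cons t L ih =>
    simp only [List.map_cons, List.sum_cons, inner_add_right, ih]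
    congr 1
    simp only [LTerm.img]
    by_cases h : t.row = p.2 ∧ t.col = q.2 ∧ t.g.ran p.1.1 = 1 ∧ phi t.g p.1 = q.1
    · obtain ⟨h1, h2, h3, h4⟩ := h
      obtain ⟨hd, hi⟩ := (phi_eq_iff t.g).2 ⟨h3, h4⟩
      rw [if_pos ⟨h2, hd⟩, if_pos ⟨h1, h2, h3, h4⟩, inner_del_del, if_pos (Prod.ext hi h1), one_mul,
        hi]
    · rw [if_neg h]
      split
      · rename_i h'
        rw [inner_del_del, if_neg]
        intro he
        obtain ⟨hr, hp⟩ := (phi_eq_iff t.g).1 ⟨h'.2, congrArg Prod.fst he⟩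
        exact h ⟨congrArg Prod.snd he, h'.1, hr, hp⟩
      · exact inner_zero_right _

lemma inner_lift (hD : DensSpec T) (S : GOp T ι κ) (p : (Ω × ℝ) × ι) (q : (Ω × ℝ) × κ) :
    ⟪del p 1, op (lift S) (del q 1)⟫_ℝ =
      if Rel T p.1 q.1 then S.ker (p.1.1, p.2) (q.1.1, q.2) else 0 := by
  rw [inner_op_del, lift, List.map_map, GOp.ker]
  induction S with
  | nil => simp
  | cons t S ih =>
    simp only [List.map_cons, List.sum_cons, ih, Function.comp_apply, liftTerm, lc_apply]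
    rcases idem_zero_or_one t.g.ran_idem p.1.1 with h0 | h0
    · simp [h0]
    by_cases hR : Rel T p.1 q.1
    · rw [if_pos hR, if_pos hR]
      congr 1
      by_cases h : t.row = p.2 ∧ t.col = q.2 ∧ t.g.toDom p.1.1 = q.1.1
      · have h' : t.row = p.2 ∧ t.col = q.2 ∧ t.g.ran p.1.1 = 1 ∧ phi t.g p.1 = q.1 :=
          ⟨h.1, h.2.1, h0, hR.phi_eq hD h0 h.2.2⟩
        refine (if_pos h').trans ?_
        rw [if_pos h, h0, mul_one]
      · refine (if_neg ?_).trans (if_neg h).symm
        rintro ⟨h1, h2, -, h4⟩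
        exact h ⟨h1, h2, congrArg Prod.fst h4⟩
    · rw [if_neg hR, if_neg hR, add_zero]
      refine if_neg ?_
      rintro ⟨-, -, h3, h4⟩
      exact hR ⟨t.g, h3, h4⟩

lemma coef_eq_inner (p : (Ω × ℝ) × ι) (f : LVec Ω ι) : LVec.coef p f = ⟪del p 1, f⟫_ℝ := by
  rw [inner_del, one_mul]

lemma op_lift_eq_add (hD : DensSpec T) {A B C : GOp T ι κ}
    (h : ∀ x y, A.ker x y = B.ker x y + C.ker x y) :
    op (lift A) = op (lift B) + op (lift C) := by
  refine lhom_ext fun q c => Finsupp.ext fun p => ?_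
  show LVec.coef p (op (lift A) (del q c)) = LVec.coef p ((op (lift B) + op (lift C)) (del q c))
  have hc : del q c = c • (del q 1 : LVec Ω κ) :=
    ((Finsupp.smul_single _ _ _).trans (congrArg _ (mul_one c))).symm
  rw [hc, coef_eq_inner, coef_eq_inner, map_smul, map_smul, LinearMap.add_apply,
    real_inner_smul_right, real_inner_smul_right, inner_add_right, inner_lift hD, inner_lift hD,
    inner_lift hD]
  split
  · rw [h]
  · simp

/-- the support of a vector -/
def LVec.supp (f : LVec Ω ι) : Finset ((Ω × ℝ) × ι) :=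
  (show ((Ω × ℝ) × ι) →₀ ℝ from f).support

lemma eq_sum_del (f : LVec Ω ι) : f = ∑ p ∈ f.supp, LVec.coef p f • (del p 1 : LVec Ω ι) := by
  conv_lhs => rw [← Finsupp.sum_single (show ((Ω × ℝ) × ι) →₀ ℝ from f)]
  exact Finset.sum_congr rfl fun p _ =>
    ((Finsupp.smul_single _ _ _).trans (congrArg _ (mul_one _))).symm

lemma norm_sq_eq_sum (f : LVec Ω ι) : ‖f‖ ^ 2 = ∑ p ∈ f.supp, LVec.coef p f ^ 2 := by
  rw [← real_inner_self_eq_norm_sq, inner_eq_dot, dot_eq_sum f f (Finset.Subset.refl _)]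
  exact Finset.sum_congr rfl fun p _ => (pow_two _).symm

/-- a bound for the kernel gives a bound for the lifted operator -/
theorem abs_inner_lift_le (hD : DensSpec T) {S : GOp T ι κ} {c : ℝ} (hS : OpBd S.ker c)
    (h : LVec Ω ι) (v : LVec Ω κ) : |⟪h, op (lift S) v⟫_ℝ| ≤ c * ‖h‖ * ‖v‖ := by
  let cl : Ω × ℝ → Quotient (orbitSetoid T) := fun x => Quotient.mk (orbitSetoid T) x
  have hcl : ∀ x y, cl x = cl y ↔ Rel T x y := fun x y => Quotient.eq
  set A := h.supp with hA
  set Bs := v.supp with hBs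
  set Cs := A.image fun p => cl p.1 with hCs
  have hexp : ⟪h, op (lift S) v⟫_ℝ = ∑ k ∈ Cs, ∑ p ∈ A.filter (fun p => cl p.1 = k),
      ∑ q ∈ Bs.filter (fun q => cl q.1 = k),
        LVec.coef p h * S.ker (p.1.1, p.2) (q.1.1, q.2) * LVec.coef q v := by
    conv_lhs => rw [eq_sum_del h, eq_sum_del v]
    simp only [sum_inner, map_sum, map_smul, inner_sum, real_inner_smul_left,
      real_inner_smul_right, inner_lift hD]
    rw [Finset.sum_comm, ← hA, ← hBs, ← Finset.sum_fiberwise_of_maps_to (t := Cs)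
      (g := fun p : (Ω × ℝ) × ι => cl p.1) (fun p hp => Finset.mem_image_of_mem _ hp)]
    refine Finset.sum_congr rfl fun k _ => Finset.sum_congr rfl fun p hp => ?_
    rw [Finset.sum_filter]
    refine Finset.sum_congr rfl fun q _ => ?_
    have hpk := (Finset.mem_filter.1 hp).2
    by_cases hR : Rel T p.1 q.1
    · rw [if_pos hR, if_pos (((hcl _ _).2 hR).symm.trans hpk)]
      ring
    · rw [if_neg hR, if_neg fun e => hR ((hcl _ _).1 (hpk.trans e.symm))]
      ring
  have hblock : ∀ k, |∑ p ∈ A.filter (fun p => cl p.1 = k),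
      ∑ q ∈ Bs.filter (fun q => cl q.1 = k),
        LVec.coef p h * S.ker (p.1.1, p.2) (q.1.1, q.2) * LVec.coef q v| ≤
      c * (Real.sqrt (∑ p ∈ A.filter (fun p => cl p.1 = k), LVec.coef p h ^ 2) *
        Real.sqrt (∑ q ∈ Bs.filter (fun q => cl q.1 = k), LVec.coef q v ^ 2)) := by
    intro k
    have hinj : ∀ {α : Type} (Z : Finset ((Ω × ℝ) × α)),
        Set.InjOn (fun p : (Ω × ℝ) × α => (p.1.1, p.2))
          (Z.filter (fun p => cl p.1 = k) : Finset ((Ω × ℝ) × α)) := by
      intro α Z p hp q hq e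
      have hp' := (Finset.mem_filter.1 (Finset.mem_coe.1 hp)).2
      have hq' := (Finset.mem_filter.1 (Finset.mem_coe.1 hq)).2
      have e' : (p.1.1, p.2) = (q.1.1, q.2) := e
      have e1 : p.1.1 = q.1.1 := (Prod.ext_iff.1 e').1
      have e2 : p.2 = q.2 := (Prod.ext_iff.1 e').2
      exact Prod.ext (Rel.eq_of_fst hD ((hcl _ _).1 (hp'.trans hq'.symm)) e1) e2
    set A' := A.filter (fun p => cl p.1 = k) with hA'
    set B' := Bs.filter (fun q => cl q.1 = k) with hB'
    set f : Ω × ι → ℝ := fun z =>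
      ∑ p ∈ A'.filter (fun p => (p.1.1, p.2) = z), LVec.coef p h with hf
    set g : Ω × κ → ℝ := fun z =>
      ∑ q ∈ B'.filter (fun q => (q.1.1, q.2) = z), LVec.coef q v with hg
    have hfp : ∀ p ∈ A', f (p.1.1, p.2) = LVec.coef p h := fun p hp =>
      Finset.sum_eq_single_of_mem p (Finset.mem_filter.2 ⟨hp, rfl⟩) fun q hq hne =>
        absurd ((hinj A) (Finset.mem_coe.2 (Finset.mem_filter.1 hq).1) (Finset.mem_coe.2 hp)
          (Finset.mem_filter.1 hq).2) hne
    have hgq : ∀ q ∈ B', g (q.1.1, q.2) = LVec.coef q v := fun q hq =>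
      Finset.sum_eq_single_of_mem q (Finset.mem_filter.2 ⟨hq, rfl⟩) fun p hp hne =>
        absurd ((hinj Bs) (Finset.mem_coe.2 (Finset.mem_filter.1 hp).1) (Finset.mem_coe.2 hq)
          (Finset.mem_filter.1 hp).2) hne
    have key := hS (A'.image fun p => (p.1.1, p.2)) (B'.image fun q => (q.1.1, q.2)) f g
    have iA : Set.InjOn (fun p : (Ω × ℝ) × ι => (p.1.1, p.2)) A' := hinj A
    have iB : Set.InjOn (fun p : (Ω × ℝ) × κ => (p.1.1, p.2)) B' := hinj Bs
    rw [Finset.sum_image iA, Finset.sum_image iA, Finset.sum_image iB] at key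
    have k1 : ∑ p ∈ A', ∑ y ∈ B'.image (fun q => (q.1.1, q.2)),
        f (p.1.1, p.2) * S.ker (p.1.1, p.2) y * g y =
        ∑ p ∈ A', ∑ q ∈ B', LVec.coef p h * S.ker (p.1.1, p.2) (q.1.1, q.2) * LVec.coef q v :=
      Finset.sum_congr rfl fun p hp => (Finset.sum_image iB).trans
        (Finset.sum_congr rfl fun q hq => by rw [hfp p hp, hgq q hq])
    have k2 : ∑ p ∈ A', f (p.1.1, p.2) ^ 2 = ∑ p ∈ A', LVec.coef p h ^ 2 :=
      Finset.sum_congr rfl fun p hp => by rw [hfp p hp]
    have k3 : ∑ q ∈ B', g (q.1.1, q.2) ^ 2 = ∑ q ∈ B', LVec.coef q v ^ 2 :=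
      Finset.sum_congr rfl fun q hq => by rw [hgq q hq]
    rw [k1, k2, k3] at key
    rw [← mul_assoc]
    exact key
  rw [hexp]
  refine (Finset.abs_sum_le_sum_abs _ _).trans ((Finset.sum_le_sum fun k _ => hblock k).trans ?_)
  rw [← Finset.mul_sum, mul_assoc]
  have hfib : ∀ {α : Type} (u : LVec Ω α) (s : Finset (Quotient (orbitSetoid T))),
      ∑ k ∈ s, ∑ q ∈ u.supp.filter (fun q => cl q.1 = k), LVec.coef q u ^ 2 ≤ ‖u‖ ^ 2 := by
    intro α u s
    rw [norm_sq_eq_sum]
    exact Finset.sum_fiberwise_le_sum_of_sum_fiber_nonneg fun k _ =>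
      Finset.sum_nonneg fun q _ => sq_nonneg _
  have hc : 0 ≤ c ∨ h = 0 ∨ v = 0 := by
    by_cases h0 : h = 0
    · exact Or.inr (Or.inl h0)
    by_cases v0 : v = 0
    · exact Or.inr (Or.inr v0)
    obtain ⟨p, -, -⟩ : ∃ p, p ∈ h.supp ∧ LVec.coef p h ≠ 0 := by
      by_contra hcon
      simp only [not_exists, not_and, not_not] at hcon
      exact h0 ((eq_sum_del h).trans (Finset.sum_eq_zero fun p hp => by rw [hcon p hp, zero_smul]))
    obtain ⟨q, -, -⟩ : ∃ q, q ∈ v.supp ∧ LVec.coef q v ≠ 0 := by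
      by_contra hcon
      simp only [not_exists, not_and, not_not] at hcon
      exact v0 ((eq_sum_del v).trans (Finset.sum_eq_zero fun p hp => by rw [hcon p hp, zero_smul]))
    left
    have := hS {(p.1.1, p.2)} {(q.1.1, q.2)} (fun _ => 1) (fun _ => 1)
    simp only [Finset.sum_singleton, one_pow, Real.sqrt_one, mul_one] at this
    exact (abs_nonneg _).trans this
  rcases hc with hc | rfl | rfl
  · refine mul_le_mul_of_nonneg_left ?_ hc
    refine (Real.sum_sqrt_mul_sqrt_le _ (fun k => Finset.sum_nonneg fun p _ => sq_nonneg _)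
      (fun k => Finset.sum_nonneg fun p _ => sq_nonneg _)).trans ?_
    refine mul_le_mul ?_ ?_ (Real.sqrt_nonneg _) (norm_nonneg _)
    · rw [← Real.sqrt_sq (norm_nonneg h)]
      exact Real.sqrt_le_sqrt (hfib h Cs)
    · rw [← Real.sqrt_sq (norm_nonneg v)]
      exact Real.sqrt_le_sqrt (hfib v Cs)
  · simp
  · simp

/-- the norm bound for the lifted operator and its transpose -/
theorem norm_lift_le (hD : DensSpec T) {S : GOp T ι κ} {c : ℝ} (hc : 0 ≤ c) (hS : OpBd S.ker c) :
    (∀ v, ‖op (lift S) v‖ ≤ c * ‖v‖) ∧ ∀ h, ‖op (ltp (lift S)) h‖ ≤ c * ‖h‖ := by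
  refine ⟨fun v => ?_, fun h => ?_⟩
  · have := abs_inner_lift_le hD hS (op (lift S) v) v
    rw [real_inner_self_eq_norm_sq, abs_of_nonneg (sq_nonneg _)] at this
    nlinarith [norm_nonneg (op (lift S) v), norm_nonneg v, mul_nonneg hc (norm_nonneg v)]
  · have := abs_inner_lift_le hD hS h (op (ltp (lift S)) h)
    rw [real_inner_comm, op_ltp, real_inner_self_eq_norm_sq, abs_of_nonneg (sq_nonneg _)] at this
    nlinarith [norm_nonneg (op (ltp (lift S)) h), norm_nonneg h, mul_nonneg hc (norm_nonneg h)]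

end Vale.Agent.P078.T3.Rank
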