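import Mathlib
import Vale.Agent.P078.Type3.Rank.OfGOp

/-! The trace of the lifted space. -/

noncomputable section

open Classical MeasureTheory Filter
open scoped BoundedContinuousFunction InnerProductSpace ComplexOrder

set_option linter.unusedSectionVars false

namespace Vale.Agent.P078.T3.Rank

universe u v

variable {M : Type u} [CStarAlgebra M] [PartialOrder M] [StarOrderedRing M]
  {Ω : Type v} [TopologicalSpace Ω] [CompactSpace Ω] [T2Space Ω]


variable {T : SMasa M Ω} {ι κ lab : Type}

/-! ### integrals over the levels -/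

/-- vanishing at high levels -/
def Cut (f : Ω × ℝ → ℝ) : Prop := ∃ C, ∀ b σ, C ≤ σ → f (b, σ) = 0

lemma Cut.mul_right {f : Ω × ℝ → ℝ} (h : Cut f) (g : Ω × ℝ → ℝ) : Cut (f * g) :=
  h.imp fun C hC b σ hσ => by simp [hC b σ hσ]

lemma Cut.mul_left {f : Ω × ℝ → ℝ} (h : Cut f) (g : Ω × ℝ → ℝ) : Cut (g * f) :=
  h.imp fun C hC b σ hσ => by simp [hC b σ hσ]

lemma Cut.add {f g : Ω × ℝ → ℝ} : Cut f → Cut g → Cut (f + g) := by
  rintro ⟨C, hC⟩ ⟨D, hD⟩
  exact ⟨max C D, fun b σ hσ => by
    simp [hC b σ ((le_max_left _ _).trans hσ), hD b σ ((le_max_right _ _).trans hσ)]⟩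

lemma Cut.zero : Cut (0 : Ω × ℝ → ℝ) := ⟨0, fun _ _ _ => rfl⟩

lemma Cut.comp_phi {f : Ω × ℝ → ℝ} (h : Cut f) (g : GElt T) : Cut (f ∘ phi g) := by
  obtain ⟨C, hC⟩ := h
  set l : C(Ω, ℝ) := ⟨fun b => Real.log (g.dens b),
    g.dens.continuous.log fun b => (g.dens_pos b).ne'⟩ with hl
  refine ⟨C + ‖l‖, fun b σ hσ => hC _ _ ?_⟩
  have := le_trans (le_abs_self _) (l.norm_coe_le_norm b)
  change Real.log (g.dens b) ≤ ‖l‖ at this
  linarith

/-- the integral over the levels -/
def intF (f : Ω × ℝ → ℝ) (b : Ω) : ℝ := ∫ σ, Real.exp σ * f (b, σ)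

lemma bound_integrable (K C : ℝ) :
    Integrable (Set.indicator (Set.Iic C) fun σ => K * Real.exp σ) :=
  (integrable_indicator_iff measurableSet_Iic).2 ((integrableOn_exp_Iic C).const_mul K)

lemma norm_le_bound {f : (Ω × ℝ) →ᵇ ℝ} {C : ℝ} (hC : ∀ b σ, C ≤ σ → f (b, σ) = 0) (b : Ω) (σ : ℝ) :
    ‖Real.exp σ * f (b, σ)‖ ≤ Set.indicator (Set.Iic C) (fun σ => ‖f‖ * Real.exp σ) σ := by
  by_cases h : σ ∈ Set.Iic C
  · rw [Set.indicator_of_mem h, norm_mul, mul_comm, Real.norm_of_nonneg (Real.exp_pos σ).le]
    exact mul_le_mul_of_nonneg_right (f.norm_coe_le_norm _) (Real.exp_pos σ).le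
  · rw [Set.indicator_of_notMem h, hC b σ (le_of_not_ge h), mul_zero, norm_zero]

lemma integrable_intF {f : (Ω × ℝ) →ᵇ ℝ} (h : Cut f) (b : Ω) :
    Integrable fun σ => Real.exp σ * f (b, σ) := by
  obtain ⟨C, hC⟩ := h
  refine (bound_integrable ‖f‖ C).mono' ?_ (Eventually.of_forall (norm_le_bound hC b))
  exact (Real.continuous_exp.mul
    (f.continuous.comp (continuous_const.prodMk continuous_id))).aestronglyMeasurable

lemma continuous_intF {f : (Ω × ℝ) →ᵇ ℝ} (h : Cut f) : Continuous (intF f) := by
  obtain ⟨C, hC⟩ := h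
  refine continuous_iff_continuousAt.2 fun b => ?_
  have key : ∀ ε > 0, ∀ᶠ b' in nhds b, |intF f b' - intF f b| ≤ ε := by
    intro ε hε
    obtain ⟨D, hDC, hD⟩ : ∃ D, D ≤ C ∧ 2 * ‖f‖ * Real.exp D ≤ ε / 2 := by
      have : Tendsto (fun D => 2 * ‖f‖ * Real.exp D) atBot (nhds 0) := by
        simpa using Real.tendsto_exp_atBot.const_mul (2 * ‖f‖)
      exact ((eventually_le_atBot C).and (this.eventually (Iic_mem_nhds (half_pos hε)))).exists
    set η := ε / (2 * Real.exp C) with hη
    have hη0 : 0 < η := by positivity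
    have hev : ∀ᶠ b' in nhds b, ∀ σ ∈ Set.Icc D C, |f (b', σ) - f (b, σ)| ≤ η := by
      refine isCompact_Icc.eventually_forall_of_forall_eventually fun σ _ => ?_
      have hc : Continuous fun z : Ω × ℝ => |f (z.1, z.2) - f (b, z.2)| :=
        ((f.continuous).sub
          (f.continuous.comp (continuous_const.prodMk continuous_snd))).abs
      exact (hc.tendsto (b, σ)).eventually (Iic_mem_nhds (by simpa using hη0))
    refine hev.mono fun b' hb' => ?_
    rw [intF, intF, ← integral_sub (integrable_intF ⟨C, hC⟩ b') (integrable_intF ⟨C, hC⟩ b)]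
    refine (abs_integral_le_integral_abs).trans ?_
    refine (integral_mono_of_nonneg (Eventually.of_forall fun σ => abs_nonneg _)
      ((bound_integrable η C).add (bound_integrable (2 * ‖f‖) D))
      (Eventually.of_forall fun σ => ?_)).trans ?_
    · simp only [Pi.add_apply, ← mul_sub, abs_mul, abs_of_pos (Real.exp_pos σ)]
      rcases lt_or_ge C σ with h1 | h1
      · rw [Set.indicator_of_notMem (by simpa using h1),
          Set.indicator_of_notMem (by simpa using hDC.trans_lt h1), hC b' σ h1.le, hC b σ h1.le]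
        simp
      rw [Set.indicator_of_mem (by simpa using h1)]
      rcases lt_or_ge σ D with h2 | h2
      · rw [Set.indicator_of_mem (by simpa using h2.le)]
        have h3 := f.norm_coe_le_norm (b', σ)
        have h4 := f.norm_coe_le_norm (b, σ)
        rw [Real.norm_eq_abs] at h3 h4
        nlinarith [abs_sub (f (b', σ)) (f (b, σ)), Real.exp_pos σ, mul_pos hη0 (Real.exp_pos σ)]
      · have := hb' σ ⟨h2, h1⟩
        have h5 : 0 ≤ Set.indicator (Set.Iic D) (fun σ => 2 * ‖f‖ * Real.exp σ) σ :=
          Set.indicator_nonneg (fun σ _ => by positivity) σ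
        nlinarith [Real.exp_pos σ]
    · simp only [Pi.add_apply]
      rw [integral_add (bound_integrable η C) (bound_integrable (2 * ‖f‖) D),
        integral_indicator measurableSet_Iic, integral_indicator measurableSet_Iic,
        integral_const_mul, integral_const_mul, integral_exp_Iic, integral_exp_Iic]
      have : η * Real.exp C = ε / 2 := by rw [hη]; field_simp
      linarith
  rw [ContinuousAt, Metric.tendsto_nhds]
  intro ε hε
  refine (key (ε / 2) (half_pos hε)).mono fun b' hb' => ?_
  rw [Real.dist_eq]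
  linarith

/-- the integral over the levels, as a continuous function -/
def intC (f : (Ω × ℝ) →ᵇ ℝ) : C(Ω, ℝ) :=
  if h : Continuous (intF f) then ⟨intF f, h⟩ else 0

lemma intC_apply {f : (Ω × ℝ) →ᵇ ℝ} (h : Cut f) (b : Ω) : intC f b = intF f b := by
  rw [intC, dif_pos (continuous_intF h)]; rfl

lemma intC_add {f g : (Ω × ℝ) →ᵇ ℝ} (hf : Cut f) (hg : Cut g) :
    intC (f + g) = intC f + intC g := by
  ext b
  rw [intC_apply (by simpa using hf.add hg), ContinuousMap.add_apply, intC_apply hf,
    intC_apply hg, intF, intF, intF, ← integral_add (integrable_intF hf b) (integrable_intF hg b)]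
  simp only [BoundedContinuousFunction.coe_add, Pi.add_apply, mul_add]

lemma intC_zero : intC (0 : (Ω × ℝ) →ᵇ ℝ) = 0 := by
  ext b
  rw [intC_apply (by simpa using Cut.zero)]
  simp [intF]

lemma intC_mul_lc {f : (Ω × ℝ) →ᵇ ℝ} (hf : Cut f) (d : C(Ω, ℝ)) :
    intC (f * lc d) = intC f * d := by
  ext b
  rw [intC_apply (by simpa using hf.mul_right _), ContinuousMap.mul_apply, intC_apply hf, intF,
    intF, ← integral_mul_const]
  simp [mul_assoc]

lemma intC_mono {f g : (Ω × ℝ) →ᵇ ℝ} (hf : Cut f) (hg : Cut g) (h : ∀ x, f x ≤ g x) :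
    intC f ≤ intC g := fun b => by
  show intC f b ≤ intC g b
  rw [intC_apply hf, intC_apply hg]
  exact integral_mono (integrable_intF hf b) (integrable_intF hg b) fun σ =>
    mul_le_mul_of_nonneg_left (h _) (Real.exp_pos σ).le

/-- change of variables along a translation -/
lemma intC_comp_phi {f : (Ω × ℝ) →ᵇ ℝ} (hf : Cut f) (g : GElt T) :
    intC (f.compContinuous (phi g)) = (intC f).comp g.toDom * g.dens := by
  ext b
  rw [intC_apply (by simpa using hf.comp_phi g), ContinuousMap.mul_apply,
    ContinuousMap.comp_apply, intC_apply hf, intF, intF,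
    ← integral_add_right_eq_self _ (Real.log (g.dens b)), ← integral_mul_const]
  refine integral_congr_ae (Eventually.of_forall fun σ => ?_)
  simp only [BoundedContinuousFunction.compContinuous_apply]
  rw [show phi g (b, σ + Real.log (g.dens b)) = (g.toDom b, σ) from
    Prod.ext rfl (add_sub_cancel_right _ _), Real.exp_add, Real.exp_log (g.dens_pos b)]
  ring

/-- the trace of a function on the lifted space -/
def ltr (T : SMasa M Ω) (f : (Ω × ℝ) →ᵇ ℝ) : ℝ := T.tau (intC f)

lemma ltr_transport (g : GElt T) {f : (Ω × ℝ) →ᵇ ℝ} (hf : Cut f) :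
    ltr T (lc g.ran * f.compContinuous (phi g)) = ltr T (f * lc g.dom) := by
  rw [ltr, ltr, mul_comm (lc g.ran), intC_mul_lc (by simpa using hf.comp_phi g), intC_mul_lc hf,
    intC_comp_phi hf, mul_comm (intC f), ← g.tau_dens]
  congr 1
  ring

/-! ### diagonals -/

/-- the indicator of the fixed points -/
def fixFun (g : GElt T) : C(Ω, ℝ) :=
  if h : Continuous fun b => if g.ran b = 1 ∧ g.toDom b = b then (1 : ℝ) else 0 then ⟨_, h⟩ else 0

lemma fixFun_apply (hS : SepSpec T) (g : GElt T) (b : Ω) :
    fixFun g b = if g.ran b = 1 ∧ g.toDom b = b then 1 else 0 := by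
  obtain ⟨P, hP⟩ := (hS [g, GElt.one T]).exists
  have hc : Continuous fun b => if g.ran b = 1 ∧ g.toDom b = b then (1 : ℝ) else 0 := by
    have e : (fun b => if g.ran b = 1 ∧ g.toDom b = b then (1 : ℝ) else 0) =
        ⇑(g.ran * ∑ i, P.e i * (P.e i).comp g.toDom) := by
      funext b
      simp only [ContinuousMap.mul_apply, ContinuousMap.coe_sum, Finset.sum_apply,
        ContinuousMap.comp_apply]
      rcases idem_zero_or_one g.ran_idem b with h0 | h0
      · simp [h0]
      rw [h0, one_mul]
      by_cases hb : g.toDom b = b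
      · rw [if_pos ⟨rfl, hb⟩, hb]
        have h1 := DFunLike.congr_fun P.isPartition.sum_one b
        simp only [ContinuousMap.coe_sum, Finset.sum_apply, ContinuousMap.one_apply] at h1
        rw [← h1]
        refine Finset.sum_congr rfl fun i _ => ?_
        exact (DFunLike.congr_fun (P.isPartition.idem i) b).symm
      · rw [if_neg fun h => hb h.2]
        symm
        refine Finset.sum_eq_zero fun i _ => ?_
        rcases idem_zero_or_one (P.isPartition.idem i) b with h1 | h1
        · rw [h1, zero_mul]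
        rcases idem_zero_or_one (P.isPartition.idem i) (g.toDom b) with h2 | h2
        · rw [h2, mul_zero]
        exact absurd (hP g (by simp) (GElt.one T) (by simp) b i h0 rfl h2 h1) hb
    rw [e]
    exact ContinuousMap.continuous _
  rw [fixFun, dif_pos hc]
  rfl

/-- the diagonal of a lifted operator -/
def dg (L : LOp T ι ι) (i : ι) : (Ω × ℝ) →ᵇ ℝ :=
  (L.map fun t => if t.row = i ∧ t.col = i then t.coef * lc (fixFun t.g) else 0).sum

lemma dg_eq (hS : SepSpec T) (hD : DensSpec T) (L : LOp T ι ι) (i : ι) (x : Ω × ℝ) :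
    dg L i x = ⟪del (x, i) 1, op L (del (x, i) 1)⟫_ℝ := by
  rw [inner_op_del, dg]
  induction L with
  | nil => simp
  | cons t L ih =>
    simp only [List.map_cons, List.sum_cons, BoundedContinuousFunction.coe_add, Pi.add_apply, ih]
    congr 1
    by_cases h : t.row = i ∧ t.col = i
    · rw [if_pos h, BoundedContinuousFunction.coe_mul, Pi.mul_apply, lc_apply, fixFun_apply hS]
      by_cases hf : t.g.ran x.1 = 1 ∧ t.g.toDom x.1 = x.1
      · rw [if_pos hf, if_pos ⟨h.1, h.2, hf.1, (Rel.refl x).phi_eq hD hf.1 hf.2⟩, mul_one]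
      · rw [if_neg hf, mul_zero, if_neg]
        rintro ⟨-, -, h3, h4⟩
        exact hf ⟨h3, congrArg Prod.fst h4⟩
    · rw [if_neg h, if_neg fun h' => h ⟨h'.1, h'.2.1⟩]
      rfl

/-- all coefficients vanish at high levels -/
def CutL (L : LOp T ι κ) : Prop := ∀ t ∈ L, Cut t.coef

lemma CutL.append {L L' : LOp T ι κ} (h : CutL L) (h' : CutL L') : CutL (L ++ L') :=
  fun t ht => (List.mem_append.1 ht).elim (h t) (h' t)

lemma CutL.lmul_left {S : LOp T ι κ} (h : CutL S) (R : LOp T κ lab) : CutL (lmul S R) := by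
  intro t ht
  obtain ⟨s, hs, ht⟩ := List.mem_flatMap.1 ht
  obtain ⟨u, -, hu⟩ := List.mem_filterMap.1 ht
  split at hu
  · cases hu
    simpa using (h s hs).mul_right _
  · cases hu

lemma CutL.lmul_right (S : LOp T ι κ) {R : LOp T κ lab} (h : CutL R) : CutL (lmul S R) := by
  intro t ht
  obtain ⟨s, -, ht⟩ := List.mem_flatMap.1 ht
  obtain ⟨u, hu', hu⟩ := List.mem_filterMap.1 ht
  split at hu
  · cases hu
    simpa using ((h u hu').comp_phi s.g).mul_left _
  · cases hu

lemma CutL.ltp {S : LOp T ι κ} (h : CutL S) : CutL (Rank.ltp S) := by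
  intro t ht
  obtain ⟨s, hs, rfl⟩ := List.mem_map.1 ht
  simpa using (h s hs).comp_phi s.g.inv

lemma CutL.lsmul {S : LOp T ι κ} (h : CutL S) (c : ℝ) : CutL (Rank.lsmul c S) := by
  intro t ht
  obtain ⟨s, hs, rfl⟩ := List.mem_map.1 ht
  exact (h s hs).imp fun C hC b σ hσ => by simp [hC b σ hσ]

lemma cut_dg {L : LOp T ι ι} (h : CutL L) (i : ι) : Cut (dg L i) := by
  unfold dg
  induction L with
  | nil => simpa using Cut.zero
  | cons t L ih =>
    simp only [List.map_cons, List.sum_cons, BoundedContinuousFunction.coe_add]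
    refine Cut.add ?_ (ih fun s hs => h s (List.mem_cons_of_mem _ hs))
    split
    · simpa using (h t List.mem_cons_self).mul_right _
    · simpa using Cut.zero

/-- the contribution of one term to the trace -/
def trTerm (t : LTerm T ι ι) : ℝ :=
  if t.row = t.col then ltr T (t.coef * lc (fixFun t.g)) else 0

lemma sum_ltr_dg [Fintype ι] {L : LOp T ι ι} (h : CutL L) :
    ∑ i, ltr T (dg L i) = (L.map trTerm).sum := by
  induction L with
  | nil => simp [dg, ltr, intC_zero]
  | cons t L ih =>
    have hL : CutL L := fun s hs => h s (List.mem_cons_of_mem _ hs)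
    have hc : ∀ i, Cut (if t.row = i ∧ t.col = i then t.coef * lc (fixFun t.g) else 0 :
        (Ω × ℝ) →ᵇ ℝ) := fun i => by
      split
      · simpa using (h t List.mem_cons_self).mul_right _
      · simpa using Cut.zero
    have e : ∀ i, ltr T (dg (t :: L) i) = (if t.row = i ∧ t.col = i
        then ltr T (t.coef * lc (fixFun t.g)) else 0) + ltr T (dg L i) := fun i => by
      show T.tau (intC ((if t.row = i ∧ t.col = i then t.coef * lc (fixFun t.g) else 0) + dg L i))
        = _
      rw [intC_add (hc i) (cut_dg hL i), map_add]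
      congr 1
      split <;> simp [ltr, intC_zero]
    simp only [e, Finset.sum_add_distrib, ih hL, List.map_cons, List.sum_cons, trTerm]
    congr 1
    rw [Finset.sum_eq_single t.row (fun i _ hi => if_neg fun h' => hi h'.1.symm) (by simp)]
    exact if_congr ⟨fun h' => h'.2.symm, fun h' => ⟨rfl, h'.symm⟩⟩ rfl rfl

lemma pair_swap (hS : SepSpec T) (hD : DensSpec T) (g k : GElt T) {a : (Ω × ℝ) →ᵇ ℝ} (ha : Cut a)
    (c : (Ω × ℝ) →ᵇ ℝ) :
    ltr T (a * c.compContinuous (phi g) * lc (fixFun (g.mul k))) =
      ltr T (c * a.compContinuous (phi k) * lc (fixFun (k.mul g))) := by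
  set f := c * a.compContinuous (phi k) * lc (fixFun (k.mul g)) with hf
  have hcut : Cut f := by simpa [hf] using ((ha.comp_phi k).mul_left _).mul_right _
  have h1 : f * lc g.dom = f := by
    refine BoundedContinuousFunction.ext fun x => ?_
    simp only [hf, BoundedContinuousFunction.coe_mul, Pi.mul_apply, lc_apply, fixFun_apply hS]
    split
    · rename_i h
      obtain ⟨hr, hd⟩ := h
      change k.ran x.1 * g.ran (k.toDom x.1) = 1 at hr
      change g.toDom (k.toDom x.1) = x.1 at hd
      rcases idem_zero_or_one k.ran_idem x.1 with h0 | h0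
      · rw [h0, zero_mul] at hr; exact absurd hr zero_ne_one
      · rw [h0, one_mul] at hr
        have := g.dom_toDom _ hr
        rw [hd] at this
        rw [this, mul_one]
    · simp
  have h2 : lc g.ran * f.compContinuous (phi g) =
      a * c.compContinuous (phi g) * lc (fixFun (g.mul k)) := by
    refine BoundedContinuousFunction.ext fun x => ?_
    simp only [hf, BoundedContinuousFunction.coe_mul, Pi.mul_apply, lc_apply,
      BoundedContinuousFunction.compContinuous_apply, fixFun_apply hS, phi_fst]
    rcases idem_zero_or_one g.ran_idem x.1 with h0 | h0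
    · rw [h0, zero_mul, if_neg fun h => ?_, mul_zero]
      have := h.1
      change g.ran x.1 * _ = 1 at this
      rw [h0, zero_mul] at this
      exact zero_ne_one this
    by_cases hx : (g.mul k).ran x.1 = 1 ∧ (g.mul k).toDom x.1 = x.1
    · obtain ⟨hr, hd⟩ := hx
      have hr' : k.ran (g.toDom x.1) = 1 := by
        change g.ran x.1 * _ = 1 at hr
        rwa [h0, one_mul] at hr
      have hd' : k.toDom (g.toDom x.1) = x.1 := hd
      have hx2 : phi k (phi g x) = x := by
        rw [← phi_mul]
        exact (Rel.refl x).phi_eq hD hr hd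
      have hkg : (k.mul g).ran (g.toDom x.1) = 1 ∧ (k.mul g).toDom (g.toDom x.1) = g.toDom x.1 := by
        refine ⟨?_, ?_⟩
        · show k.ran (g.toDom x.1) * g.ran (k.toDom (g.toDom x.1)) = 1
          rw [hr', hd', h0, mul_one]
        · show g.toDom (k.toDom (g.toDom x.1)) = g.toDom x.1
          rw [hd']
      rw [if_pos hkg, if_pos ⟨hr, hd⟩, hx2, h0]
      ring
    · rw [if_neg hx, mul_zero, if_neg, mul_zero, mul_zero]
      rintro ⟨hr, hd⟩
      change k.ran (g.toDom x.1) * g.ran (k.toDom (g.toDom x.1)) = 1 at hr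
      change g.toDom (k.toDom (g.toDom x.1)) = g.toDom x.1 at hd
      rcases idem_zero_or_one k.ran_idem (g.toDom x.1) with h1 | h1
      · rw [h1, zero_mul] at hr; exact zero_ne_one hr
      rw [h1, one_mul] at hr
      refine hx ⟨?_, ?_⟩
      · show g.ran x.1 * k.ran (g.toDom x.1) = 1
        rw [h0, h1, mul_one]
      · show k.toDom (g.toDom x.1) = x.1
        rw [← g.toRan_toDom _ hr, hd, g.toRan_toDom _ h0]
  rw [← h2, ltr_transport g hcut, h1]

/-- cyclicity -/
theorem sum_ltr_dg_lmul_comm [Fintype ι] [Fintype κ] (hS : SepSpec T) (hD : DensSpec T)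
    {A : LOp T ι κ} (hA : CutL A) (B : LOp T κ ι) :
    ∑ i, ltr T (dg (lmul A B) i) = ∑ j, ltr T (dg (lmul B A) j) := by
  rw [sum_ltr_dg (hA.lmul_left B), sum_ltr_dg (hA.lmul_right B)]
  have e1 : ∀ (S : LOp T ι κ) (R : LOp T κ ι), ((lmul S R).map trTerm).sum =
      (S.map fun s => (R.map fun t => if s.col = t.row ∧ s.row = t.col then ltr T (s.coef *
        t.coef.compContinuous (phi s.g) * lc (fixFun (s.g.mul t.g))) else 0).sum).sum := by
    intro S R
    induction S with
    | nil => simp [lmul]
    | cons s S ih =>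
      simp only [lmul, List.flatMap_cons, List.map_append, List.sum_append, List.map_cons,
        List.sum_cons] at ih ⊢
      rw [ih]
      congr 1
      clear ih
      induction R with
      | nil => simp
      | cons t R ihR =>
        rw [List.filterMap_cons]
        by_cases h : s.col = t.row
        · simp only [if_pos h, List.map_cons, List.sum_cons, ihR]
          congr 1
          simp only [trTerm, h, true_and]
        · simp only [if_neg h, List.map_cons, List.sum_cons, ihR]
          rw [if_neg fun h' => h h'.1, zero_add]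
  have e2 : ∀ (S : LOp T κ ι) (R : LOp T ι κ), ((lmul S R).map trTerm).sum =
      (S.map fun s => (R.map fun t => if s.col = t.row ∧ s.row = t.col then ltr T (s.coef *
        t.coef.compContinuous (phi s.g) * lc (fixFun (s.g.mul t.g))) else 0).sum).sum := by
    intro S R
    induction S with
    | nil => simp [lmul]
    | cons s S ih =>
      simp only [lmul, List.flatMap_cons, List.map_append, List.sum_append, List.map_cons,
        List.sum_cons] at ih ⊢
      rw [ih]
      congr 1
      clear ih
      induction R with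
      | nil => simp
      | cons t R ihR =>
        rw [List.filterMap_cons]
        by_cases h : s.col = t.row
        · simp only [if_pos h, List.map_cons, List.sum_cons, ihR]
          congr 1
          simp only [trTerm, h, true_and]
        · simp only [if_neg h, List.map_cons, List.sum_cons, ihR]
          rw [if_neg fun h' => h h'.1, zero_add]
  rw [e1, e2]
  clear e1 e2
  induction A with
  | nil => simp
  | cons s A ih =>
    simp only [List.map_cons, List.sum_cons, List.sum_map_add]
    rw [ih fun t ht => hA t (List.mem_cons_of_mem _ ht)]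
    congr 1
    refine congrArg List.sum (List.map_congr_left fun t _ => ?_)
    by_cases h : s.col = t.row ∧ s.row = t.col
    · rw [if_pos h, if_pos ⟨h.2.symm, h.1.symm⟩]
      exact pair_swap hS hD s.g t.g (hA s List.mem_cons_self) t.coef
    · rw [if_neg h, if_neg fun h' => h ⟨h'.2.symm, h'.1.symm⟩]

/-! ### the integrated kernels -/

/-- integrate the coefficients -/
def intT (L : LOp T ι κ) : GOp T ι κ := L.map fun t => ⟨t.row, t.col, intC t.coef, t.g⟩

lemma intC_dg (hS : SepSpec T) {L : LOp T ι ι} (h : CutL L) (i : ι) (b : Ω) :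
    intC (dg L i) b = (intT L).ker (b, i) (b, i) := by
  induction L with
  | nil => simp [dg, intC_zero, intT, GOp.ker]
  | cons t L ih =>
    have hL : CutL L := fun s hs => h s (List.mem_cons_of_mem _ hs)
    have ht := h t List.mem_cons_self
    have hc : Cut (if t.row = i ∧ t.col = i then t.coef * lc (fixFun t.g) else 0 :
        (Ω × ℝ) →ᵇ ℝ) := by
      split
      · simpa using ht.mul_right _
      · simpa using Cut.zero
    have e : dg (t :: L) i =
        (if t.row = i ∧ t.col = i then t.coef * lc (fixFun t.g) else 0) + dg L i := rfl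
    rw [e, intC_add hc (cut_dg hL i), ContinuousMap.add_apply, ih hL]
    simp only [intT, GOp.ker, List.map_cons, List.sum_cons, List.map_map]
    congr 1
    by_cases h1 : t.row = i ∧ t.col = i
    · rw [if_pos h1, intC_mul_lc ht, ContinuousMap.mul_apply, fixFun_apply hS]
      rcases idem_zero_or_one t.g.ran_idem b with h0 | h0
      · simp [h0]
      by_cases h2 : t.g.toDom b = b
      · rw [if_pos ⟨h0, h2⟩, if_pos ⟨h1.1, h1.2, h2⟩, h0]
      · rw [if_neg fun h' => h2 h'.2, if_neg fun h' => h2 h'.2.2, mul_zero]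
    · rw [if_neg h1, if_neg fun h' => h1 ⟨h'.1, h'.2.1⟩, intC_zero]
      rfl

lemma intT_lmul_lift {A : LOp T ι κ} (hA : CutL A) (R : GOp T κ lab) :
    intT (lmul A (lift R)) = (intT A).mul R := by
  simp only [intT, lift, GOp.mul, lmul, List.map_flatMap, List.flatMap_map, List.map_filterMap,
    List.filterMap_map]
  refine List.flatMap_congr fun s hs => ?_
  refine List.filterMap_congr fun t _ => ?_
  by_cases h : s.col = t.row
  · simp [liftTerm, h, show (lc t.coef).compContinuous (phi s.g) = lc (t.coef.comp s.g.toDom) from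
      BoundedContinuousFunction.ext fun x => rfl, intC_mul_lc (hA s hs)]
  · simp [liftTerm, h]

lemma smul_mul (c : ℝ) (S : GOp T ι κ) (R : GOp T κ lab) :
    (S.smul c).mul R = (S.mul R).smul c := by
  simp only [GOp.smul, GOp.mul, List.map_flatMap, List.flatMap_map, List.map_filterMap]
  refine List.flatMap_congr fun s _ => List.filterMap_congr fun t _ => ?_
  by_cases h : s.col = t.row
  · simp [h]
  · simp [h]

lemma ker_smul (c : ℝ) (S : GOp T ι κ) (x : Ω × ι) (y : Ω × κ) :
    (S.smul c).ker x y = c * S.ker x y := by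
  simp only [GOp.smul, GOp.ker, List.map_map]
  induction S with
  | nil => simp
  | cons t S ih =>
    simp only [List.map_cons, List.sum_cons, Function.comp_apply, ih, mul_add]
    congr 1
    by_cases h : t.row = x.2 ∧ t.col = y.2 ∧ t.g.toDom x.1 = y.1 <;> simp [h, mul_assoc]

/-! ### the soft level sets -/

/-- the profile of the soft level set -/
def prof (s : ℝ) : ℝ := min 1 (max 0 (4 * (Real.exp (-s) - 1)))

lemma prof_nonneg (s : ℝ) : 0 ≤ prof s := le_min zero_le_one (le_max_left _ _)
lemma prof_le_one (s : ℝ) : prof s ≤ 1 := min_le_left _ _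

/-- the constant of the soft level set -/
def kap : ℝ := ∫ σ, Real.exp σ * (prof σ * prof σ)

/-- the soft level set `{level < Λ}` -/
def eFun (Λ : C(Ω, ℝ)) : (Ω × ℝ) →ᵇ ℝ :=
  BoundedContinuousFunction.mkOfBound
    ⟨fun x => min 1 (max 0 (4 * (Λ x.1 * Real.exp (-x.2) - 1))), by fun_prop⟩ 1 fun x y => by
      simp only [ContinuousMap.coe_mk, Real.dist_eq]
      rw [abs_le]
      constructor <;>
        linarith [le_min zero_le_one (le_max_left 0 (4 * (Λ x.1 * Real.exp (-x.2) - 1))),
          le_min zero_le_one (le_max_left 0 (4 * (Λ y.1 * Real.exp (-y.2) - 1))),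
          min_le_left 1 (max 0 (4 * (Λ x.1 * Real.exp (-x.2) - 1))),
          min_le_left 1 (max 0 (4 * (Λ y.1 * Real.exp (-y.2) - 1)))]

lemma eFun_apply (Λ : C(Ω, ℝ)) (x : Ω × ℝ) :
    eFun Λ x = min 1 (max 0 (4 * (Λ x.1 * Real.exp (-x.2) - 1))) := rfl

lemma eFun_ne_zero {Λ : C(Ω, ℝ)} {x : Ω × ℝ} (h : eFun Λ x ≠ 0) : Real.exp x.2 < Λ x.1 := by
  by_contra hc
  apply h
  rw [eFun_apply, max_eq_left, min_eq_right zero_le_one]
  have : Λ x.1 * Real.exp (-x.2) ≤ 1 := by
    rw [Real.exp_neg, ← div_eq_mul_inv, div_le_one (Real.exp_pos _)]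
    exact not_lt.1 hc
  linarith

lemma cut_eFun (Λ : C(Ω, ℝ)) : Cut (eFun Λ) := by
  refine ⟨‖Λ‖, fun b σ hσ => ?_⟩
  by_contra h
  have h1 : Real.exp σ < Λ b := eFun_ne_zero h
  have h2 := (le_abs_self _).trans (Λ.norm_coe_le_norm b)
  linarith [Real.add_one_le_exp σ]

lemma intC_eFun_sq {Λ : C(Ω, ℝ)} (hΛ : 0 ≤ Λ) :
    intC (eFun Λ * eFun Λ) = kap • Λ := by
  ext b
  rw [intC_apply (by simpa using (cut_eFun Λ).mul_right _), ContinuousMap.smul_apply, smul_eq_mul,
    intF]
  rcases eq_or_lt_of_le (show (0 : ℝ) ≤ Λ b from hΛ b) with h | h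
  · rw [← h, mul_zero]
    have : ∀ σ : ℝ, eFun Λ (b, σ) = 0 := fun σ => by
      by_contra h'
      have h1 : Real.exp σ < Λ b := eFun_ne_zero h'
      linarith [Real.exp_pos σ]
    simp [this]
  · rw [← integral_sub_right_eq_self _ (-Real.log (Λ b)), kap, ← integral_mul_const]
    refine integral_congr_ae (Eventually.of_forall fun σ => ?_)
    simp only [BoundedContinuousFunction.coe_mul, Pi.mul_apply, eFun_apply, prof, sub_neg_eq_add]
    rw [Real.exp_add, neg_add, Real.exp_add, Real.exp_neg (Real.log (Λ b)), Real.exp_log h]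
    have e : Λ b * (Real.exp (-σ) * (Λ b)⁻¹) = Real.exp (-σ) := by field_simp
    rw [e]
    ring

lemma kap_bounds : 4 / 5 ≤ kap ∧ kap ≤ 1 := by
  have hle : ∀ σ, Real.exp σ * (prof σ * prof σ) ≤ Set.indicator (Set.Iic 0) Real.exp σ := by
    intro σ
    by_cases h : σ ∈ Set.Iic (0:ℝ)
    · rw [Set.indicator_of_mem h]
      nlinarith [Real.exp_pos σ, prof_nonneg σ, prof_le_one σ,
        mul_le_one₀ (prof_le_one σ) (prof_nonneg σ) (prof_le_one σ)]
    · rw [Set.indicator_of_notMem h, prof, max_eq_left, min_eq_right zero_le_one]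
      · simp
      · have : Real.exp (-σ) ≤ 1 := Real.exp_le_one_iff.2 (by simp at h; linarith)
        linarith
  have hint : Integrable (fun σ => Real.exp σ * (prof σ * prof σ)) := by
    refine ((integrableOn_exp_Iic 0).integrable_indicator measurableSet_Iic).mono'
      (by unfold prof; fun_prop) (Eventually.of_forall fun σ => ?_)
    rw [Real.norm_of_nonneg (mul_nonneg (Real.exp_pos σ).le
      (mul_nonneg (prof_nonneg σ) (prof_nonneg σ)))]
    exact hle σ
  constructor
  · set c := -Real.log (5 / 4) with hc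
    have h : ∀ σ, Set.indicator (Set.Iic c) Real.exp σ ≤ Real.exp σ * (prof σ * prof σ) := by
      intro σ
      by_cases h : σ ∈ Set.Iic c
      · rw [Set.indicator_of_mem h, prof, min_eq_left, mul_one, mul_one]
        refine le_max_of_le_right ?_
        have : 5 / 4 ≤ Real.exp (-σ) := by
          rw [← Real.exp_log (show (0:ℝ) < 5 / 4 by norm_num)]
          exact Real.exp_le_exp.2 (by simp [hc] at h; linarith)
        linarith
      · rw [Set.indicator_of_notMem h]
        exact mul_nonneg (Real.exp_pos σ).le (mul_nonneg (prof_nonneg σ) (prof_nonneg σ))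
    have := integral_mono ((integrableOn_exp_Iic c).integrable_indicator measurableSet_Iic) hint h
    rw [integral_indicator measurableSet_Iic, integral_exp_Iic, hc, Real.exp_neg,
      Real.exp_log (by norm_num)] at this
    norm_num at this
    exact this
  · have := integral_mono hint
      ((integrableOn_exp_Iic 0).integrable_indicator measurableSet_Iic) hle
    rw [integral_indicator measurableSet_Iic, integral_exp_Iic, Real.exp_zero] at this
    exact this

/-- the weighted square of a graph operator on the soft level set -/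
theorem intC_dg_weighted [Fintype κ] (hS : SepSpec T) (S : GOp T ι κ) {Λ : C(Ω, ℝ)} (hΛ : 0 ≤ Λ)
    (i : ι) (b : Ω) :
    intC (dg (lmul (lmul (lift S) (ldiag fun _ : κ => eFun Λ * eFun Λ)) (ltp (lift S))) i) b =
      kap * (((S.mul (GOp.diag fun _ => Λ)).wgt.mul S.tp).ker (b, i) (b, i)) := by
  have hcut : Cut ⇑(eFun Λ * eFun Λ) := by simpa using (cut_eFun Λ).mul_right _
  have hA : CutL (lmul (lift S) (ldiag (T := T) fun _ : κ => eFun Λ * eFun Λ)) := by
    refine CutL.lmul_right _ fun t ht => ?_
    obtain ⟨j, -, rfl⟩ := List.mem_map.1 ht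
    exact hcut
  have e : intT (lmul (lift S) (ldiag (T := T) fun _ : κ => eFun Λ * eFun Λ)) =
      ((S.mul (GOp.diag fun _ => Λ)).wgt).smul kap := by
    simp only [intT, lift, GOp.mul, GOp.wgt, GOp.smul, GOp.diag, ldiag, lmul, List.map_flatMap,
      List.flatMap_map, List.map_filterMap, List.filterMap_map]
    refine List.flatMap_congr fun s _ => List.filterMap_congr fun j _ => ?_
    by_cases h : s.col = j
    · subst h
      simp only [Function.comp_apply, liftTerm, ↓reduceIte, Option.map_some]
      refine congrArg some ?_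
      congr 1
      rw [mul_comm (lc s.coef), intC_mul_lc (by simpa using hcut.comp_phi s.g),
        intC_comp_phi hcut, intC_eFun_sq hΛ]
      ext x
      simp only [ContinuousMap.mul_apply, ContinuousMap.comp_apply, ContinuousMap.smul_apply,
        smul_eq_mul, GElt.mul, GElt.one, ContinuousMap.one_apply, mul_one]
      ring
    · simp [liftTerm, h]
  rw [intC_dg hS (hA.lmul_left _), ← lift_tp, intT_lmul_lift hA, e, smul_mul, ker_smul]

end Vale.Agent.P078.T3.Rank
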