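import Mathlib

/-! Polynomials in a symmetric operator on an inner product space, without completeness. -/

noncomputable section

open Polynomial
open scoped InnerProductSpace

namespace Vale.Agent.P078.T3.Rank

variable {V : Type*} [NormedAddCommGroup V] [InnerProductSpace ℝ V]


lemma isSymmetric_pow {A : Module.End ℝ V} (h : A.IsSymmetric) : ∀ i : ℕ, (A ^ i).IsSymmetric
  | 0 => fun _ _ => rfl
  | i + 1 => fun x y => by
    have ih := isSymmetric_pow h i
    rw [pow_succ]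
    simp only [Module.End.mul_apply]
    rw [ih, h]
    congr 1
    rw [← Module.End.mul_apply, ← pow_succ', pow_succ, Module.End.mul_apply]

lemma isSymmetric_aeval {A : Module.End ℝ V} (h : A.IsSymmetric) (p : ℝ[X]) :
    (aeval A p).IsSymmetric := by
  induction p using Polynomial.induction_on' with
  | add p q hp hq => rw [map_add]; exact hp.add hq
  | monomial i c =>
    intro x y
    rw [aeval_monomial, Algebra.algebraMap_eq_smul_one, smul_one_mul]
    simp only [LinearMap.smul_apply, real_inner_smul_left, real_inner_smul_right,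
      isSymmetric_pow h i x y]

/-- A polynomial which is nonnegative on `[0, 1]` gives a positive form at a symmetric operator
with form between `0` and `1`. -/
theorem aeval_form_nonneg {A : Module.End ℝ V} (hA : A.IsSymmetric)
    (h0 : ∀ v, 0 ≤ ⟪v, A v⟫_ℝ) (h1 : ∀ v, ⟪v, A v⟫_ℝ ≤ ⟪v, v⟫_ℝ) {p : ℝ[X]}
    (hp : ∀ a ∈ Set.Icc (0 : ℝ) 1, 0 ≤ p.eval a) (v : V) :
    0 ≤ ⟪v, aeval A p v⟫_ℝ := by
  classical
  set W : Submodule ℝ V :=
    Submodule.span ℝ ((fun i => (A ^ i) v) '' (Finset.range (p.natDegree + 1) : Set ℕ)) with hWdef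
  have : FiniteDimensional ℝ W := FiniteDimensional.span_of_finite ℝ
    ((Finset.finite_toSet _).image _)
  have hmem : ∀ i, i ≤ p.natDegree → (A ^ i) v ∈ W := fun i hi =>
    Submodule.subset_span ⟨i, by simpa using Nat.lt_succ_of_le hi, rfl⟩
  set C : W →ₗ[ℝ] W := W.orthogonalProjectionOnto.toLinearMap ∘ₗ A ∘ₗ W.subtype with hC
  have hCin : ∀ x y : W, ⟪x, C y⟫_ℝ = ⟪(x : V), A y⟫_ℝ := fun x y => by
    simp [hC]
  have hCsym : C.IsSymmetric := fun x y => by
    rw [real_inner_comm, hCin, hCin, real_inner_comm, hA]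
  set w0 : W := ⟨v, by simpa using hmem 0 (Nat.zero_le _)⟩ with hw0
  have hpow : ∀ i, i ≤ p.natDegree → (((C ^ i) w0 : W) : V) = (A ^ i) v := by
    intro i
    induction i with
    | zero => intro _; simp [hw0]
    | succ i ih =>
      intro hi
      have e1 : A (((C ^ i) w0 : W) : V) = (A ^ (i + 1)) v := by
        rw [ih (by omega), pow_succ', Module.End.mul_apply]
      rw [pow_succ', Module.End.mul_apply]
      simp only [hC, LinearMap.coe_comp, Function.comp_apply, Submodule.coe_subtype]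
      simp only [hC] at e1
      rw [e1]
      exact Submodule.starProjection_eq_self_iff.2 (hmem _ hi)
  have hp' : ((aeval C p w0 : W) : V) = aeval A p v := by
    rw [aeval_eq_sum_range, aeval_eq_sum_range]
    simp only [LinearMap.sum_apply, LinearMap.smul_apply, Submodule.coe_sum, Submodule.coe_smul]
    exact Finset.sum_congr rfl fun i hi => by
      rw [hpow i (Nat.lt_succ_iff.1 (Finset.mem_range.1 hi))]
  rw [← hp', show v = ((w0 : W) : V) from rfl, ← Submodule.coe_inner]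
  set b := hCsym.eigenvectorBasis (rfl : Module.finrank ℝ W = _) with hb
  rw [← b.sum_inner_mul_inner w0 (aeval C p w0)]
  refine Finset.sum_nonneg fun i _ => ?_
  set l : ℝ := hCsym.eigenvalues rfl i with hl
  have he : Module.End.HasEigenvector C l (b i) :=
    hCsym.hasEigenvector_eigenvectorBasis rfl i
  have hCb : C (b i) = l • b i := he.apply_eq_smul
  have hbb : ⟪b i, b i⟫_ℝ = 1 := by
    rw [real_inner_self_eq_norm_sq, b.orthonormal.1 i, one_pow]
  have hl01 : l ∈ Set.Icc (0 : ℝ) 1 := by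
    have e : ⟪((b i : W) : V), A (b i)⟫_ℝ = l := by
      rw [← hCin, hCb, real_inner_smul_right, hbb, mul_one]
    refine ⟨e ▸ h0 _, e ▸ (h1 _).trans_eq ?_⟩
    rw [← Submodule.coe_inner, hbb]
  rw [← isSymmetric_aeval hCsym p (b i) w0, Module.End.aeval_apply_of_hasEigenvector he,
    real_inner_smul_left, real_inner_comm w0 (b i)]
  nlinarith [hp l hl01, sq_nonneg (⟪w0, b i⟫_ℝ)]

/-- the same, for an upper bound -/
theorem aeval_form_le {A : Module.End ℝ V} (hA : A.IsSymmetric)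
    (h0 : ∀ v, 0 ≤ ⟪v, A v⟫_ℝ) (h1 : ∀ v, ⟪v, A v⟫_ℝ ≤ ⟪v, v⟫_ℝ) {p q : ℝ[X]}
    (hpq : ∀ a ∈ Set.Icc (0 : ℝ) 1, p.eval a ≤ q.eval a) (v : V) :
    ⟪v, aeval A p v⟫_ℝ ≤ ⟪v, aeval A q v⟫_ℝ := by
  have := aeval_form_nonneg hA h0 h1 (p := q - p)
    (fun a ha => by rw [eval_sub]; linarith [hpq a ha]) v
  rw [map_sub, LinearMap.sub_apply, inner_sub_right] at this
  linarith

/-! ### the scalar facts -/

/-- `1 - (1 - a) ^ n` -/
def lev (n : ℕ) : ℝ[X] := 1 - (1 - X) ^ n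

/-- the sum of the powers of `1 - a` below `m` -/
def geo (m : ℕ) : ℝ[X] := ∑ i ∈ Finset.range m, (1 - X) ^ i

lemma eval_lev (n : ℕ) (a : ℝ) : (lev n).eval a = 1 - (1 - a) ^ n := by simp [lev]

lemma X_mul_geo (m : ℕ) : X * geo m = lev m := by
  have := geom_sum_mul_neg (1 - X : ℝ[X]) m
  rw [sub_sub_cancel, mul_comm] at this
  exact this

lemma eval_geo (m : ℕ) (a : ℝ) : (geo m).eval a = ∑ i ∈ Finset.range m, (1 - a) ^ i := by
  simp [geo, eval_finsetSum]

lemma geo_bounds (m : ℕ) {a : ℝ} (ha : a ∈ Set.Icc (0 : ℝ) 1) :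
    0 ≤ (geo m).eval a ∧ (geo m).eval a ≤ m := by
  have h0 : 0 ≤ 1 - a := by linarith [ha.2]
  have h1 : 1 - a ≤ 1 := by linarith [ha.1]
  rw [eval_geo]
  refine ⟨Finset.sum_nonneg fun i _ => pow_nonneg h0 i, ?_⟩
  calc ∑ i ∈ Finset.range m, (1 - a) ^ i ≤ ∑ _i ∈ Finset.range m, (1 : ℝ) :=
        Finset.sum_le_sum fun i _ => pow_le_one₀ h0 h1
    _ = m := by simp

lemma lev_bounds (m : ℕ) {a : ℝ} (ha : a ∈ Set.Icc (0 : ℝ) 1) :
    0 ≤ (lev m).eval a ∧ (lev m).eval a ≤ 1 := by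
  have h0 : 0 ≤ 1 - a := by linarith [ha.2]
  rw [eval_lev]
  exact ⟨by linarith [pow_le_one₀ (n := m) h0 (by linarith [ha.1])],
    by linarith [pow_nonneg h0 m]⟩

lemma mul_geo_sq_le (m : ℕ) {a : ℝ} (ha : a ∈ Set.Icc (0 : ℝ) 1) :
    a * (geo m).eval a ^ 2 ≤ m := by
  have h : a * (geo m).eval a = (lev m).eval a := by
    rw [← X_mul_geo, eval_mul, eval_X]
  obtain ⟨g0, g1⟩ := geo_bounds m ha
  obtain ⟨-, l1⟩ := lev_bounds m ha
  calc a * (geo m).eval a ^ 2 = (lev m).eval a * (geo m).eval a := by rw [← h]; ring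
    _ ≤ 1 * m := mul_le_mul l1 g1 g0 zero_le_one
    _ = m := one_mul _

lemma lev_le_sq (n m : ℕ) {a : ℝ} (ha : a ∈ Set.Icc (0 : ℝ) 1) :
    (lev n).eval a ≤ (lev m).eval a ^ 2 + 2 * n / (m + 1) := by
  obtain ⟨hn0, hn1⟩ := lev_bounds n ha
  obtain ⟨hm0, -⟩ := lev_bounds m ha
  rcases le_or_gt n m with hnm | hnm
  · have h0 : 0 ≤ 1 - a := by linarith [ha.2]
    have h1 : 1 - a ≤ 1 := by linarith [ha.1]
    rw [eval_lev, eval_lev] at *
    set u := 1 - a with hu
    have hmn : u ^ m ≤ u ^ n := pow_le_pow_of_le_one h0 h1 hnm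
    have hn : 1 - u ^ n ≤ n * a := by
      have := one_add_mul_le_pow (show (-2 : ℝ) ≤ -a by linarith [ha.2]) n
      rw [show 1 + -a = u by rw [hu]; ring] at this
      linarith
    have hm : ((m : ℝ) + 1) * (a * u ^ m) ≤ 1 := by
      have hs : ((m : ℝ) + 1) * u ^ m ≤ ∑ i ∈ Finset.range (m + 1), u ^ i := by
        calc ((m : ℝ) + 1) * u ^ m = ∑ _i ∈ Finset.range (m + 1), u ^ m := by simp
          _ ≤ _ := Finset.sum_le_sum fun i hi =>
            pow_le_pow_of_le_one h0 h1 (Nat.lt_succ_iff.1 (Finset.mem_range.1 hi))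
      have hg := geom_sum_mul_neg u (m + 1)
      rw [show 1 - u = a by rw [hu]; ring] at hg
      nlinarith [mul_le_mul_of_nonneg_left hs ha.1, pow_nonneg h0 (m + 1)]
    have h2 : 1 - u ^ n - (1 - u ^ m) ^ 2 ≤ (1 - u ^ n) * u ^ m := by
      nlinarith [mul_le_mul_of_nonneg_left (show 1 - u ^ n ≤ 1 - u ^ m by linarith) hm0]
    have h3 : (1 - u ^ n) * u ^ m ≤ n / (m + 1) := by
      rw [le_div_iff₀ (by positivity)]
      calc (1 - u ^ n) * u ^ m * (m + 1) ≤ n * a * u ^ m * (m + 1) :=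
            mul_le_mul_of_nonneg_right (mul_le_mul_of_nonneg_right hn (pow_nonneg h0 m))
              (by positivity)
        _ = n * (((m : ℝ) + 1) * (a * u ^ m)) := by ring
        _ ≤ n * 1 := mul_le_mul_of_nonneg_left hm (Nat.cast_nonneg n)
        _ = n := mul_one _
    have h4 : (n : ℝ) / (m + 1) ≤ 2 * n / (m + 1) := by
      gcongr; linarith [Nat.cast_nonneg (α := ℝ) n]
    linarith
  · have h : (1 : ℝ) ≤ 2 * n / (m + 1) := by
      rw [le_div_iff₀ (by positivity)]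
      have : (m : ℝ) + 1 ≤ n := by exact_mod_cast hnm
      linarith [Nat.cast_nonneg (α := ℝ) n]
    nlinarith [sq_nonneg ((lev m).eval a)]

/-- a polynomial `p` with `a p(a)² ≤ 1` and nearly `1` away from `0` -/
lemma exists_polar {ε : ℝ} (hε : 0 < ε) :
    ∃ p : ℝ[X], ∀ a ∈ Set.Icc (0 : ℝ) 1,
      a * p.eval a ^ 2 ≤ 1 ∧ a * (1 - a * p.eval a ^ 2) ^ 2 ≤ ε := by
  obtain ⟨θ, hθ, hθε, hθ1⟩ : ∃ θ, 0 < θ ∧ θ ≤ ε ∧ θ ≤ 1 :=
    ⟨min ε 1, lt_min hε one_pos, min_le_left _ _, min_le_right _ _⟩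
  obtain ⟨η, hη, hη16, hη1⟩ : ∃ η, 0 < η ∧ 16 * η ≤ ε ∧ 4 * η ≤ 1 :=
    ⟨min (ε / 16) (1 / 4), lt_min (by linarith) (by norm_num),
      by linarith [min_le_left (ε / 16) (1 / 4)], by linarith [min_le_right (ε / 16) (1 / 4)]⟩
  have hpos : ∀ a : ℝ, 0 < Real.sqrt (max a θ) :=
    fun a => Real.sqrt_pos.2 (lt_of_lt_of_le hθ (le_max_right _ _))
  obtain ⟨p₀, hp₀⟩ := exists_polynomial_near_of_continuousOn 0 1
    (fun a => 1 / Real.sqrt (max a θ))
    ((continuous_const.div (by fun_prop) fun a => (hpos a).ne').continuousOn) η hη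
  refine ⟨C (1 / (1 + η)) * p₀, fun a ha => ?_⟩
  obtain ⟨hlo, hhi⟩ := abs_lt.1 (hp₀ a ha)
  simp only [eval_mul, eval_C]
  set q := p₀.eval a with hq
  set s := Real.sqrt a with hs
  have hs0 : 0 ≤ s := Real.sqrt_nonneg _
  have hs1 : s ≤ 1 := Real.sqrt_le_one.2 ha.2
  have hss : s * s = a := Real.mul_self_sqrt ha.1
  set z := 1 / (1 + η) * (s * q) with hz
  have hza : a * (1 / (1 + η) * q) ^ 2 = z ^ 2 := by rw [hz, ← hss]; ring
  have hh : s * (1 / Real.sqrt (max a θ)) ≤ 1 := by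
    rw [mul_one_div, div_le_one (hpos a)]
    exact Real.sqrt_le_sqrt (le_max_left _ _)
  have hh0 : 0 ≤ s * (1 / Real.sqrt (max a θ)) := by positivity
  have hsq : |s * q - s * (1 / Real.sqrt (max a θ))| ≤ η := by
    rw [← mul_sub, abs_mul, abs_of_nonneg hs0]
    calc s * |q - 1 / Real.sqrt (max a θ)| ≤ 1 * η := by
          apply mul_le_mul hs1 _ (abs_nonneg _) zero_le_one
          exact abs_le.2 ⟨by linarith, by linarith⟩
      _ = η := one_mul η
  obtain ⟨hsq1, hsq2⟩ := abs_le.1 hsq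
  have hzabs : |z| ≤ 1 := by
    rw [hz, abs_mul, abs_of_pos (show 0 < 1 / (1 + η) by positivity), one_div_mul_eq_div,
      div_le_one (by linarith)]
    exact abs_le.2 ⟨by linarith, by linarith⟩
  have hz1 : z ^ 2 ≤ 1 := (sq_le_one_iff_abs_le_one z).2 hzabs
  rw [hza]
  refine ⟨hz1, ?_⟩
  have hz0 : (1 - z ^ 2) ^ 2 ≤ 1 - z ^ 2 := by nlinarith [sq_nonneg z]
  rcases le_or_gt a θ with h | h
  · nlinarith [mul_le_mul_of_nonneg_left (hz0.trans (by nlinarith [sq_nonneg z] : 1 - z ^ 2 ≤ 1))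
      ha.1]
  · have he : s * (1 / Real.sqrt (max a θ)) = 1 := by
      rw [max_eq_left h.le, ← hs, mul_one_div, div_self (Real.sqrt_pos.2 (hθ.trans h)).ne']
    have hzlo : 1 - 2 * η ≤ z := by
      rw [hz, one_div_mul_eq_div, le_div_iff₀ (by linarith)]
      nlinarith [sq_nonneg η]
    have hz4 : 1 - z ^ 2 ≤ 4 * η := by nlinarith
    nlinarith [mul_le_mul ha.2 (hz0.trans hz4) (sq_nonneg _) zero_le_one]

end Vale.Agent.P078.T3.Rank
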