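import Mathlib
import Vale.Agent.P078.Type3.Masa
import Vale.Agent.P078.Type3.Specs
import Vale.Agent.P078.Type3.Rank.Poly
import Vale.Agent.P078.Type3.Rank.Integral

/-! The weighted rank bound, without cyclicity of the state. -/

noncomputable section

open Classical Polynomial MeasureTheory
open scoped BoundedContinuousFunction InnerProductSpace ComplexOrder

set_option linter.unusedSectionVars false

namespace Vale.Agent.P078.T3.Rank

universe u v

variable {M : Type u} [CStarAlgebra M] [PartialOrder M] [StarOrderedRing M]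
  {Ω : Type v} [TopologicalSpace Ω] [CompactSpace Ω] [T2Space Ω]


variable {T : SMasa M Ω} {ι κ : Type}

lemma op_ltp_unique {L : LOp T ι κ} {K : LVec Ω ι →ₗ[ℝ] LVec Ω κ}
    (h : ∀ u w, ⟪op L u, w⟫_ℝ = ⟪u, K w⟫_ℝ) : op (ltp L) = K :=
  LinearMap.ext fun w => ext_inner_left ℝ fun u => by rw [← op_ltp, h]

lemma coef_op_ldiag [Fintype ι] (f : ι → (Ω × ℝ) →ᵇ ℝ) (u : LVec Ω ι) (p : (Ω × ℝ) × ι) :
    LVec.coef p (op (ldiag (T := T) f) u) = f p.2 p.1 * LVec.coef p u := by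
  induction u using LVec.induction with
  | h0 => simp
  | hadd a b ha hb => simp only [map_add, ha, hb, mul_add]
  | hdel q c =>
    rw [op_ldiag, map_smul, smul_eq_mul, coef_del]
    split
    · rename_i h; rw [h]
    · simp

lemma op_ldiag_symm [Fintype ι] (f : ι → (Ω × ℝ) →ᵇ ℝ) :
    (op (ldiag (T := T) f)).IsSymmetric := by
  intro u w
  induction u using LVec.induction with
  | h0 => simp
  | hadd a b ha hb => rw [map_add, inner_add_left, inner_add_left, ha, hb]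
  | hdel q c =>
    rw [op_ldiag, real_inner_smul_left, inner_del, inner_del, coef_op_ldiag]
    ring

lemma norm_op_ldiag_le [Fintype ι] (f : ι → (Ω × ℝ) →ᵇ ℝ) (hf : ∀ i x, |f i x| ≤ 1)
    (u : LVec Ω ι) : ‖op (ldiag (T := T) f) u‖ ≤ ‖u‖ := by
  have hs : LVec.supp (op (ldiag (T := T) f) u) ⊆ u.supp := by
    intro p hp
    by_contra h
    have h0 : LVec.coef p u = 0 := Finsupp.notMem_support_iff.1 h
    exact Finsupp.mem_support_iff.1 hp (show LVec.coef p (op (ldiag f) u) = 0 by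
      rw [coef_op_ldiag, h0, mul_zero])
  have h : ‖op (ldiag (T := T) f) u‖ ^ 2 ≤ ‖u‖ ^ 2 := by
    rw [norm_sq_eq_sum, norm_sq_eq_sum]
    refine (Finset.sum_le_sum_of_subset_of_nonneg hs fun p _ _ => sq_nonneg _).trans
      (Finset.sum_le_sum fun p _ => ?_)
    rw [coef_op_ldiag, mul_pow]
    exact mul_le_of_le_one_left (sq_nonneg _) ((sq_le_one_iff_abs_le_one _).2 (hf _ _))
  exact (sq_le_sq₀ (norm_nonneg _) (norm_nonneg _)).1 h

lemma eFun_bounds (Λ : C(Ω, ℝ)) (x : Ω × ℝ) : 0 ≤ eFun Λ x ∧ eFun Λ x ≤ 1 :=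
  ⟨le_min zero_le_one (le_max_left _ _), min_le_left _ _⟩

lemma aeval_intertwine {U : LVec Ω ι →ₗ[ℝ] LVec Ω κ} {X : Module.End ℝ (LVec Ω ι)}
    {Y : Module.End ℝ (LVec Ω κ)} (h : ∀ v, U (X v) = Y (U v)) (p : ℝ[X]) :
    ∀ v, U (aeval X p v) = aeval Y p (U v) := by
  induction p using Polynomial.induction_on' with
  | add p q hp hq => intro v; simp only [map_add, LinearMap.add_apply, hp, hq]
  | monomial n c =>
    intro v
    simp only [aeval_monomial, Algebra.algebraMap_eq_smul_one, smul_one_mul,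
      LinearMap.smul_apply, map_smul]
    congr 1
    induction n generalizing v with
    | zero => simp
    | succ n ih => rw [pow_succ, pow_succ, Module.End.mul_apply, Module.End.mul_apply, ih, h]

lemma aeval_mul_apply' {X : Module.End ℝ (LVec Ω ι)} (p q : ℝ[X]) (v : LVec Ω ι) :
    aeval X (p * q) v = aeval X p (aeval X q v) := by
  rw [map_mul]; rfl

lemma aeval_kill {X : Module.End ℝ (LVec Ω ι)} {v : LVec Ω ι} (h : X v = 0) (p : ℝ[X]) :
    ∃ c : ℝ, aeval X p v = c • v := by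
  induction p using Polynomial.induction_on' with
  | add p q hp hq =>
    obtain ⟨a, ha⟩ := hp
    obtain ⟨b, hb⟩ := hq
    exact ⟨a + b, by rw [map_add, LinearMap.add_apply, ha, hb, add_smul]⟩
  | monomial n c =>
    cases n with
    | zero => exact ⟨c, by simp [Algebra.algebraMap_eq_smul_one]⟩
    | succ n => exact ⟨0, by simp [Polynomial.aeval_monomial, pow_succ, h]⟩

/-- the bound through the projection `W^t W` -/
lemma projection_bound {V V' : Type*} [NormedAddCommGroup V] [InnerProductSpace ℝ V]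
    [NormedAddCommGroup V'] [InnerProductSpace ℝ V'] {W : V →ₗ[ℝ] V'} {Wt : V' →ₗ[ℝ] V}
    (hadj : ∀ u w, ⟪W u, w⟫_ℝ = ⟪u, Wt w⟫_ℝ) (hWt : ∀ w, ‖Wt w‖ ≤ ‖w‖) (a b x : V) (hx : x = a + b) :
    ‖x‖ ^ 2 ≤ 2 * ‖W x‖ ^ 2 + 6 * ‖a - Wt (W a)‖ ^ 2 + 6 / 5 * ‖b‖ ^ 2 := by
  set D := ‖a - Wt (W a)‖ with hD
  have hb : ‖b - Wt (W b)‖ ≤ ‖b‖ := by
    have h : ‖b - Wt (W b)‖ ^ 2 ≤ ‖b‖ ^ 2 := by
      rw [norm_sub_sq_real, ← hadj, real_inner_self_eq_norm_sq]
      nlinarith [hWt (W b), norm_nonneg (Wt (W b)), norm_nonneg (W b)]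
    exact (sq_le_sq₀ (norm_nonneg _) (norm_nonneg _)).1 h
  have hsplit : ⟪x, x⟫_ℝ = ⟪x, Wt (W x)⟫_ℝ + ⟪x, (a - Wt (W a)) + (b - Wt (W b))⟫_ℝ := by
    rw [← inner_add_right]
    congr 1
    rw [hx]
    simp only [map_add]
    abel
  rw [← hadj, real_inner_self_eq_norm_sq, real_inner_self_eq_norm_sq] at hsplit
  have h1 : ⟪x, (a - Wt (W a)) + (b - Wt (W b))⟫_ℝ ≤ ‖x‖ * (D + ‖b‖) :=
    (real_inner_le_norm _ _).trans (mul_le_mul_of_nonneg_left
      ((norm_add_le _ _).trans (by linarith)) (norm_nonneg _))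
  nlinarith [sq_nonneg (‖x‖ - (D + ‖b‖)), sq_nonneg (5 * D - ‖b‖)]

lemma ltr_le {f : (Ω × ℝ) →ᵇ ℝ} (hf : Cut f) {a : C(Ω, ℝ)} (h : ∀ b, intF f b ≤ a b) :
    ltr T f ≤ T.tau a :=
  T.tau_mono fun b => (intC_apply hf b).le.trans (h b)

lemma ltr_nonneg {f : (Ω × ℝ) →ᵇ ℝ} (hf : Cut f) (h : ∀ x, 0 ≤ f x) : 0 ≤ ltr T f := by
  refine T.tau_nonneg fun b => ?_
  show (0 : ℝ) ≤ intC f b
  rw [intC_apply hf]
  exact integral_nonneg fun σ => mul_nonneg (Real.exp_pos σ).le (h _)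

lemma ltr_mono {f g : (Ω × ℝ) →ᵇ ℝ} (hf : Cut f) (hg : Cut g) (h : ∀ x, f x ≤ g x) :
    ltr T f ≤ ltr T g := T.tau_mono (intC_mono hf hg h)

lemma ltr_add {f g : (Ω × ℝ) →ᵇ ℝ} (hf : Cut f) (hg : Cut g) :
    ltr T (f + g) = ltr T f + ltr T g := by rw [ltr, intC_add hf hg, map_add]; rfl

lemma Cut.smul {f : (Ω × ℝ) →ᵇ ℝ} (hf : Cut f) (c : ℝ) : Cut ⇑(c • f) :=
  hf.imp fun C hC b σ hσ => by simp [hC b σ hσ]

lemma ltr_smul {f : (Ω × ℝ) →ᵇ ℝ} (hf : Cut f) (c : ℝ) : ltr T (c • f) = c * ltr T f := by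
  have : intC (c • f) = c • intC f := by
    ext b
    rw [intC_apply (hf.smul c), ContinuousMap.smul_apply, intC_apply hf, intF, intF, smul_eq_mul,
      ← integral_const_mul]
    simp only [BoundedContinuousFunction.coe_smul, smul_eq_mul]
    congr 1
    funext σ
    ring
  rw [ltr, this, map_smul, smul_eq_mul]
  rfl

/-- the squares of a graph operator on the soft level set -/
lemma weighted_square [Fintype ι] [Fintype κ] (hS : SepSpec T) (hD : DensSpec T) (S : GOp T ι κ)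
    {Λ : C(Ω, ℝ)} (hΛ : 0 ≤ Λ) (h : ι → C(Ω, ℝ))
    (hh : ∀ i b, ((S.mul (GOp.diag fun _ => Λ)).wgt.mul S.tp).ker (b, i) (b, i) ≤ h i b) :
    ∃ f : κ → (Ω × ℝ) →ᵇ ℝ, (∀ j, Cut (f j)) ∧
      (∀ j x, f j x = eFun Λ x ^ 2 * ‖op (lift S) (del (x, j) 1)‖ ^ 2) ∧
      ∑ j, ltr T (f j) ≤ kap * ∑ i, T.tau (h i) := by
  set E2 : LOp T κ κ := ldiag fun _ => eFun Λ * eFun Λ with hE2
  have hcut : CutL E2 := fun t ht => by
    obtain ⟨j, -, rfl⟩ := List.mem_map.1 ht
    simpa using (cut_eFun Λ).mul_right _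
  have hA : CutL (lmul (lift S) E2) := CutL.lmul_right _ hcut
  refine ⟨fun j => dg (lmul (ltp (lift S)) (lmul (lift S) E2)) j,
    fun j => cut_dg (hA.lmul_right _) j, fun j x => ?_, ?_⟩
  · show dg _ j x = _
    rw [dg_eq hS hD, op_lmul, LinearMap.comp_apply, ← op_ltp, op_lmul, LinearMap.comp_apply,
      op_ldiag, map_smul, real_inner_smul_right, real_inner_self_eq_norm_sq,
      BoundedContinuousFunction.coe_mul, Pi.mul_apply, pow_two (eFun Λ x)]
  · rw [← sum_ltr_dg_lmul_comm hS hD hA, Finset.mul_sum]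
    refine Finset.sum_le_sum fun i _ => ?_
    rw [← smul_eq_mul kap, ← map_smul]
    refine T.tau_mono fun b => ?_
    show intC _ b ≤ kap * h i b
    rw [intC_dg_weighted hS S hΛ]
    exact mul_le_mul_of_nonneg_left (hh i b) (by linarith [kap_bounds.1])

/-- the soft row set -/
def rowSet (G : ℝ) (Λ rows : C(Ω, ℝ)) : (Ω × ℝ) →ᵇ ℝ := eFun ((4 * G) • Λ) * lc rows

/-- the bounded part of the row lives on the soft row set -/
lemma rowSet_fix {r : ℕ} (Tb : GOp T Unit (Fin r)) {rows Λ : C(Ω, ℝ)} {G : ℝ}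
    (hTb : ∀ t ∈ Tb, ∀ b, t.coef b * t.g.ran b ≠ 0 →
      rows b = 1 ∧ Λ (t.g.toDom b) * t.g.dens b ≤ 2 * G * Λ b)
    (x : Ω × ℝ) (j : Fin r) (hx : eFun Λ x ≠ 0) :
    op (ldiag (T := T) fun _ : Unit => rowSet G Λ rows) (op (lift Tb) (del (x, j) 1))
      = op (lift Tb) (del (x, j) 1) := by
  set rF := rowSet G Λ rows with hrF
  set R := op (ldiag (T := T) fun _ : Unit => rF) with hR
  rw [op_del, one_smul]
  have key : ∀ t ∈ lift Tb, R (t.img (x, j)) = t.img (x, j) := by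
    intro t ht
    obtain ⟨t0, ht0, rfl⟩ := List.mem_map.1 ht
    simp only [LTerm.img]
    split
    · rename_i h
      obtain ⟨hran, hphi⟩ := (phi_eq_iff t0.g).1 ⟨h.2, rfl⟩
      set x' := phi t0.g.inv x with hx'
      rw [hR, op_ldiag]
      by_cases h0 : (liftTerm t0).coef (phi (liftTerm t0).g.inv (x, j).1) = 0
      · rw [h0]
        simp [show ∀ p : (Ω × ℝ) × Unit, (del p (0:ℝ) : LVec Ω Unit) = 0 from
          fun p => Finsupp.single_zero p]
      · obtain ⟨hr, hle⟩ := hTb t0 ht0 x'.1 (by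
          rw [show t0.g.ran x'.1 = 1 from hran, mul_one]; exact h0)
        suffices hone : rF x' = 1 by
          show rF x' • _ = _
          rw [hone, one_smul]
        have hσ : x'.2 - Real.log (t0.g.dens x'.1) = x.2 := by
          rw [← phi_snd]; exact congrArg Prod.snd hphi
        have ha : t0.g.toDom x'.1 = x.1 := by
          rw [← phi_fst]; exact congrArg Prod.fst hphi
        rw [ha] at hle
        have h1 : Real.exp x'.2 ≤ 2 * G * Λ x'.1 := by
          have he : Real.exp x'.2 = Real.exp x.2 * t0.g.dens x'.1 := by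
            rw [← hσ, Real.exp_sub, Real.exp_log (t0.g.dens_pos _),
              div_mul_cancel₀ _ (t0.g.dens_pos _).ne']
          rw [he]
          exact (mul_le_mul_of_nonneg_right (eFun_ne_zero hx).le (t0.g.dens_pos _).le).trans hle
        rw [hrF, rowSet, BoundedContinuousFunction.coe_mul, Pi.mul_apply, lc_apply, hr, mul_one,
          eFun_apply, min_eq_left]
        refine le_max_of_le_right ?_
        have h2 : 2 ≤ ((4 * G) • Λ) x'.1 * Real.exp (-x'.2) := by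
          rw [ContinuousMap.smul_apply, smul_eq_mul, Real.exp_neg, ← div_eq_mul_inv,
            le_div_iff₀ (Real.exp_pos _)]
          linarith
        linarith
    · exact map_zero R
  revert key
  induction lift Tb with
  | nil => simp
  | cons t L ih =>
    intro key
    simp only [List.map_cons, List.sum_cons, map_add, key t List.mem_cons_self,
      ih fun s hs => key s (List.mem_cons_of_mem _ hs)]

/-- the diagonal of a level operator -/
lemma lev_diag {r : ℕ} (hD : DensSpec T) (Tm : GOp T Unit (Fin r))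
    {A : Module.End ℝ (LVec Ω (Fin r))} {B : ℝ}
    (hAv : ∀ u, A u = (1 / B) • op (ltp (lift Tm)) (op (lift Tm) u)) (hAs : A.IsSymmetric)
    (hA0 : ∀ u, 0 ≤ ⟪u, A u⟫_ℝ) (hA1 : ∀ u, ⟪u, A u⟫_ℝ ≤ ⟪u, u⟫_ℝ) {n m : ℕ} {d : Fin r → C(Ω, ℝ)}
    (hd : ∀ j b, d j b = (GOp.levOp Tm B n).ker (b, j) (b, j)) (x : Ω × ℝ) (j : Fin r) :
    d j x.1 ≤ ‖aeval A (lev m) (del (x, j) 1)‖ ^ 2 + 2 * n / (m + 1) := by
  set δ : LVec Ω (Fin r) := del (x, j) 1 with hδ
  have hy : op (lift (GOp.yOp Tm B)) = (1 - A : Module.End ℝ (LVec Ω (Fin r))) := by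
    refine LinearMap.ext fun u => ?_
    rw [GOp.yOp, lift_add, op_append, op_lift_one, lift_smul, op_lsmul, lift_mul, lift_tp,
      op_lmul]
    simp only [LinearMap.id_coe, id_eq, LinearMap.smul_apply,
      LinearMap.comp_apply, neg_smul, LinearMap.sub_apply, Module.End.one_apply, hAv,
      ← sub_eq_add_neg]
  have hlev : op (lift (GOp.levOp Tm B n)) = aeval A (lev n) := by
    rw [GOp.levOp, lift_add, op_append, op_lift_one, lift_smul, op_lsmul, op_lift_pow, hy, lev,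
      map_sub, map_one, map_pow, map_sub, map_one, aeval_X, neg_one_smul, ← sub_eq_add_neg]
    rfl
  have h1 : d j x.1 = ⟪δ, aeval A (lev n) δ⟫_ℝ := by
    rw [← hlev, inner_lift hD, if_pos (Rel.refl x), hd]
  have h2 := aeval_form_le hAs hA0 hA1 (p := lev n)
    (q := lev m * lev m + C (2 * (n : ℝ) / (m + 1)))
    (fun a ha => by
      simp only [eval_add, eval_mul, eval_C]
      linarith [lev_le_sq n m ha]) δ
  rw [map_add, LinearMap.add_apply, inner_add_right, aeval_mul_apply', ← isSymmetric_aeval hAs (lev m) δ,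
    aeval_C, Module.algebraMap_end_apply, real_inner_smul_right, real_inner_self_eq_norm_sq,
    real_inner_self_eq_norm_sq, ← h1,
    show ‖δ‖ = 1 by rw [hδ, norm_del, abs_one]] at h2
  linarith

/-- an approximate polar part -/
lemma polar_exists {r : ℕ} (ML : LOp T Unit (Fin r)) {c : ℝ} (hc : 0 ≤ c)
    (hM : ∀ w, ‖op (ltp ML) w‖ ^ 2 ≤ c * ‖w‖ ^ 2) {ε : ℝ} (hε : 0 < ε) :
    ∃ LW : LOp T Unit (Fin r), (CutL ML → CutL LW) ∧ (∀ w, ‖op (ltp LW) w‖ ≤ ‖w‖) ∧
      (∀ v, op (ltp ML) v = 0 → op (ltp LW) v = 0) ∧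
      ∀ y, ‖op (ltp ML) y - op (ltp LW) (op LW (op (ltp ML) y))‖ ^ 2 ≤ c * (ε * ‖y‖ ^ 2) := by
  have hc' : 0 ≤ c⁻¹ := inv_nonneg.2 hc
  set LA2 : LOp T Unit Unit := lsmul c⁻¹ (lmul ML (ltp ML)) with hLA2
  set A2 : Module.End ℝ (LVec Ω Unit) := op LA2 with hA2
  have hA2v : ∀ u, A2 u = c⁻¹ • op ML (op (ltp ML) u) := fun u => by
    rw [hA2, hLA2, op_lsmul, op_lmul]; rfl
  have hqA2 : ∀ u, ⟪u, A2 u⟫_ℝ = c⁻¹ * ‖op (ltp ML) u‖ ^ 2 := fun u => by
    rw [hA2v, real_inner_smul_right, real_inner_comm, op_ltp, real_inner_self_eq_norm_sq]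
  have hA20 : ∀ u, 0 ≤ ⟪u, A2 u⟫_ℝ := fun u => by rw [hqA2]; positivity
  have hA21 : ∀ u, ⟪u, A2 u⟫_ℝ ≤ ⟪u, u⟫_ℝ := fun u => by
    rw [hqA2, real_inner_self_eq_norm_sq]
    rcases eq_or_lt_of_le hc with h0 | h0
    · simp [← h0]
    · rw [← div_eq_inv_mul, div_le_iff₀' h0]
      exact hM u
  have hA2s : A2.IsSymmetric := fun u w => by
    rw [hA2v, hA2v, real_inner_smul_left, real_inner_smul_right, op_ltp, real_inner_comm,
      ← op_ltp, real_inner_comm]
  have hMtA2 : ∀ z, ‖op (ltp ML) z‖ ^ 2 ≤ c * ⟪z, A2 z⟫_ℝ := fun z => by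
    rcases eq_or_lt_of_le hc with h0 | h0
    · have := hM z
      simpa [← h0] using this
    · rw [hqA2, mul_inv_cancel_left₀ h0.ne']
  obtain ⟨p, hp⟩ := exists_polar hε
  obtain ⟨LP, hLP⟩ := exists_aeval LA2 p
  set β := Real.sqrt c⁻¹ with hβ
  have hβ2 : β * β = c⁻¹ := Real.mul_self_sqrt hc'
  set LW : LOp T Unit (Fin r) := lsmul β (lmul LP ML) with hLW
  have hWv : ∀ u, op LW u = β • aeval A2 p (op ML u) := fun u => by
    rw [hLW, op_lsmul, op_lmul, LinearMap.smul_apply, LinearMap.comp_apply, hLP, hA2]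
  have hWt : op (ltp LW) = β • (op (ltp ML) ∘ₗ aeval A2 p) := op_ltp_unique fun u w => by
    rw [hWv, real_inner_smul_left, isSymmetric_aeval hA2s, op_ltp, LinearMap.smul_apply,
      real_inner_smul_right]
    rfl
  have hWt1 : ∀ w, ‖op (ltp LW) w‖ ≤ ‖w‖ := fun w => by
    have h := aeval_form_le hA2s hA20 hA21 (p := p * (X * p)) (q := 1)
      (fun a ha => by
        simp only [eval_mul, eval_X, eval_one]
        nlinarith [(hp a ha).1]) w
    rw [aeval_mul_apply', aeval_mul_apply', aeval_X, ← isSymmetric_aeval hA2s p w, hqA2,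
      map_one, Module.End.one_apply, real_inner_self_eq_norm_sq] at h
    refine (sq_le_sq₀ (norm_nonneg _) (norm_nonneg _)).1 ?_
    rw [hWt, LinearMap.smul_apply, norm_smul, mul_pow, Real.norm_eq_abs, sq_abs, pow_two β, hβ2,
      LinearMap.comp_apply]
    exact h
  have hclose : ∀ y, ‖op (ltp ML) y - op (ltp LW) (op LW (op (ltp ML) y))‖ ^ 2
      ≤ c * (ε * ‖y‖ ^ 2) := fun y => by
    have hA2p : op ML (op (ltp ML) y) = op ML (op (ltp ML) y) := rfl
    have e : op (ltp LW) (op LW (op (ltp ML) y)) = op (ltp ML) (aeval A2 (p * (p * X)) y) := by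
      rw [hWt, hWv, LinearMap.smul_apply, LinearMap.comp_apply, map_smul, map_smul, smul_smul,
        hβ2, aeval_mul_apply', aeval_mul_apply', aeval_X, hA2v, map_smul, map_smul, map_smul]
    rw [e, ← map_sub, show y - aeval A2 (p * (p * X)) y = aeval A2 (1 - p * (p * X)) y by
      rw [map_sub, map_one, LinearMap.sub_apply, Module.End.one_apply]]
    refine (hMtA2 _).trans (mul_le_mul_of_nonneg_left ?_ hc)
    have h := aeval_form_le hA2s hA20 hA21
      (p := (1 - p * (p * X)) * (X * (1 - p * (p * X)))) (q := C ε)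
      (fun a ha => by
        simp only [eval_mul, eval_X, eval_C, eval_sub, eval_one]
        calc _ = a * (1 - a * p.eval a ^ 2) ^ 2 := by ring
          _ ≤ ε := (hp a ha).2) y
    rw [aeval_mul_apply', aeval_mul_apply', aeval_X, ← isSymmetric_aeval hA2s _ y, aeval_C,
      Module.algebraMap_end_apply, real_inner_smul_right, real_inner_self_eq_norm_sq] at h
    exact h
  refine ⟨LW, fun h => CutL.lsmul (CutL.lmul_right _ h) _, hWt1, fun v hv => ?_, hclose⟩
  have h2 : A2 v = 0 := by rw [hA2v, hv, map_zero, smul_zero]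
  obtain ⟨a, ha⟩ := aeval_kill h2 p
  rw [hWt, LinearMap.smul_apply, LinearMap.comp_apply, ha]
  simp only [map_smul, hv, smul_zero]

/-- the trace of the square of the projection on the soft row set -/
lemma row_mass {r : ℕ} (hS : SepSpec T) (hD : DensSpec T) {G : ℝ} (hG : 1 ≤ G)
    {rows Λ : C(Ω, ℝ)} (hrows : rows * rows = rows) (hΛ : 0 ≤ Λ) {LW : LOp T Unit (Fin r)}
    (hWcut : CutL LW) (hWt1 : ∀ w, ‖op (ltp LW) w‖ ≤ ‖w‖)
    (hkill : ∀ x, rowSet G Λ rows x = 0 → op (ltp LW) (del (x, ()) 1) = 0)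
    {LF : LOp T (Fin r) (Fin r)} (hFs : (op LF).IsSymmetric) (hF1 : ∀ u, ‖op LF u‖ ≤ ‖u‖) :
    ∑ j, ltr T (dg (lmul (ltp (lmul LW LF)) (lmul LW LF)) j) ≤ 4 * G * T.tau (Λ * rows) := by
  have hrows01 := fun b => idem_zero_or_one hrows b
  set rF := rowSet G Λ rows with hrF
  set F : Module.End ℝ (LVec Ω (Fin r)) := op LF with hF
  set LWF : LOp T Unit (Fin r) := lmul LW LF with hLWF
  have hWFcut : CutL LWF := hWcut.lmul_left _
  rw [← sum_ltr_dg_lmul_comm hS hD hWFcut, Fintype.sum_unique, ← smul_eq_mul, ← map_smul]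
  refine ltr_le (cut_dg (hWFcut.lmul_left _) _) fun b => ?_
  set f := dg (lmul LWF (ltp LWF)) (default : Unit) with hf
  have hfv : ∀ x, f x = ‖F (op (ltp LW) (del (x, default) 1))‖ ^ 2 := fun x => by
    have e : op (ltp LWF) = F ∘ₗ op (ltp LW) := op_ltp_unique fun u w => by
      rw [hLWF, op_lmul, LinearMap.comp_apply, op_ltp, ← hF, hFs]
      rfl
    rw [hf, dg_eq hS hD, op_lmul, LinearMap.comp_apply, real_inner_comm, op_ltp, e,
      real_inner_self_eq_norm_sq, LinearMap.comp_apply]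
  have hf1 : ∀ x, f x ≤ 1 := fun x => by
    rw [hfv]
    have := (hF1 _).trans ((hWt1 (del (x, (default : Unit)) 1)).trans_eq
      (by rw [norm_del, abs_one]))
    nlinarith [norm_nonneg (F (op (ltp LW) (del (x, (default : Unit)) (1 : ℝ))))]
  have hf0 : ∀ x, rF x = 0 → f x = 0 := fun x hx => by
    rw [hfv, hkill x hx, map_zero, norm_zero]
    norm_num
  show intF f b ≤ 4 * G * (Λ b * rows b)
  have hnn : 0 ≤ 4 * G * (Λ b * rows b) := by
    rcases hrows01 b with h | h <;> rw [h] <;>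
      nlinarith [show (0 : ℝ) ≤ Λ b from hΛ b]
  set v := 4 * G * (Λ b * rows b) with hv
  have hzero : ∀ σ, v ≤ Real.exp σ → f (b, σ) = 0 := fun σ hσ => by
    refine hf0 _ ?_
    rcases hrows01 b with h | h
    · simp [hrF, rowSet, h]
    by_contra hne
    have hne' : eFun ((4 * G) • Λ) (b, σ) ≠ 0 := fun h' => hne (by simp [hrF, rowSet, h'])
    have := eFun_ne_zero hne'
    simp only [ContinuousMap.smul_apply, smul_eq_mul] at this
    rw [hv, h, mul_one] at hσ
    linarith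
  have hint' := integrable_intF (cut_dg (hWFcut.lmul_left (ltp LWF)) (default : Unit)) b
  rcases eq_or_lt_of_le hnn with h0 | h0
  · have : ∀ σ, f (b, σ) = 0 := fun σ => hzero σ (h0 ▸ (Real.exp_pos σ).le)
    rw [← h0, intF]
    simp [this]
  · have h := integral_mono hint'
      ((integrableOn_exp_Iic (Real.log v)).integrable_indicator measurableSet_Iic) fun σ => by
        show Real.exp σ * f (b, σ) ≤ _
        by_cases h' : σ ∈ Set.Iic (Real.log v)
        · rw [Set.indicator_of_mem h']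
          exact mul_le_of_le_one_right (Real.exp_pos σ).le (hf1 _)
        · rw [Set.indicator_of_notMem h', hzero σ, mul_zero]
          rw [← Real.exp_log h0]
          exact Real.exp_le_exp.2 (not_le.1 h').le
    rw [integral_indicator measurableSet_Iic, integral_exp_Iic, Real.exp_log h0] at h
    exact h

/-- summation of a pointwise bound -/
lemma rank_combine {r : ℕ} {Λ : C(Ω, ℝ)} (hΛ : 0 ≤ Λ) {d : Fin r → C(Ω, ℝ)}
    {fW fR fH : Fin r → (Ω × ℝ) →ᵇ ℝ} (hfWc : ∀ j, Cut (fW j)) (hfRc : ∀ j, Cut (fR j))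
    (hfHc : ∀ j, Cut (fH j)) {a a' cst : ℝ}
    (hpt : ∀ j x, eFun Λ x ^ 2 * d j x.1 ≤ 2 * fW j x + a * fR j x + a' * fH j x
      + cst * eFun Λ x ^ 2) :
    kap * T.tau (Λ * ∑ j, d j) ≤ 2 * ∑ j, ltr T (fW j) + a * ∑ j, ltr T (fR j)
      + a' * ∑ j, ltr T (fH j) + r * (cst * (kap * T.tau Λ)) := by
  set e2 : (Ω × ℝ) →ᵇ ℝ := eFun Λ * eFun Λ with he2
  have he2c : Cut e2 := by simpa [he2] using (cut_eFun Λ).mul_right _
  have hsum : ∑ j, ltr T (e2 * lc (d j)) ≤ 2 * ∑ j, ltr T (fW j) + a * ∑ j, ltr T (fR j)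
      + a' * ∑ j, ltr T (fH j) + ∑ _j : Fin r, cst * ltr T e2 := by
    simp only [Finset.mul_sum, ← Finset.sum_add_distrib]
    refine Finset.sum_le_sum fun j _ => ?_
    have c1 := (hfWc j).smul 2
    have c2 := (hfRc j).smul a
    have c3 := (hfHc j).smul a'
    have c4 := he2c.smul cst
    refine (ltr_mono (g := (2 : ℝ) • fW j + a • fR j + a' • fH j + cst • e2)
      (by simpa using he2c.mul_right _) (by simpa using ((c1.add c2).add c3).add c4)
      fun x => ?_).trans_eq ?_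
    · simpa [he2, pow_two, lc_apply] using hpt j x
    rw [ltr_add (by simpa using (c1.add c2).add c3) c4, ltr_add (by simpa using c1.add c2) c3,
      ltr_add c1 c2, ltr_smul (hfWc j), ltr_smul (hfRc j), ltr_smul (hfHc j), ltr_smul he2c]
  have hltre : ltr T e2 = kap * T.tau Λ := by
    rw [ltr, he2, intC_eFun_sq hΛ, map_smul, smul_eq_mul]
  have hlhs : ∑ j, ltr T (e2 * lc (d j)) = kap * T.tau (Λ * ∑ j, d j) := by
    rw [Finset.mul_sum, map_sum, Finset.mul_sum]
    refine Finset.sum_congr rfl fun j _ => ?_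
    rw [ltr, intC_mul_lc he2c, he2, intC_eFun_sq hΛ, smul_mul_assoc, map_smul, smul_eq_mul]
  rw [hlhs, hltre, Finset.sum_const, Finset.card_univ, Fintype.card_fin, nsmul_eq_mul] at hsum
  exact hsum

/-- the soft projection on the range of `Tm^t` -/
lemma filter_exists {r : ℕ} (hD : DensSpec T) (Tm : GOp T Unit (Fin r)) {B : ℝ} (hB : 0 < B)
    (hTm : OpBd Tm.ker (Real.sqrt B)) {n : ℕ} (m : ℕ) {d : Fin r → C(Ω, ℝ)}
    (hd : ∀ j b, d j b = (GOp.levOp Tm B n).ker (b, j) (b, j)) :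
    ∃ (LF : LOp T (Fin r) (Fin r)) (LG : LOp T Unit Unit),
      (op LF).IsSymmetric ∧ (∀ u, ‖op LF u‖ ≤ ‖u‖) ∧ (op LG).IsSymmetric ∧
      (∀ u, ‖op (ltp (lift Tm)) (op LG u)‖ ^ 2 ≤ (m : ℝ) / B * ‖u‖ ^ 2) ∧
      (∀ u, op LF u = op (ltp (lift Tm)) (op LG (op (lift Tm) u))) ∧
      ∀ (x : Ω × ℝ) (j : Fin r),
        d j x.1 ≤ ‖op LF (del (x, j) 1)‖ ^ 2 + 2 * n / (m + 1) := by
  have hsB := Real.sqrt_nonneg B
  have hB2 : Real.sqrt B * Real.sqrt B = B := Real.mul_self_sqrt hB.le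
  obtain ⟨hT1, hT2⟩ := norm_lift_le hD hsB hTm
  set T0 := op (lift Tm) with hT0
  set T0t := op (ltp (lift Tm)) with hT0t
  have hadj0 : ∀ u w, ⟪T0 u, w⟫_ℝ = ⟪u, T0t w⟫_ℝ := op_ltp (lift Tm)
  set LA : LOp T (Fin r) (Fin r) := lsmul (1 / B) (lmul (ltp (lift Tm)) (lift Tm)) with hLA
  set A : Module.End ℝ (LVec Ω (Fin r)) := op LA with hA
  have hAv : ∀ u, A u = (1 / B) • T0t (T0 u) := fun u => by
    rw [hA, hLA, op_lsmul, op_lmul]; rfl
  set LA' : LOp T Unit Unit := lsmul (1 / B) (lmul (lift Tm) (ltp (lift Tm))) with hLA'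
  set A' : Module.End ℝ (LVec Ω Unit) := op LA' with hA'
  have hA'v : ∀ u, A' u = (1 / B) • T0 (T0t u) := fun u => by
    rw [hA', hLA', op_lsmul, op_lmul]; rfl
  have hqA : ∀ u, ⟪u, A u⟫_ℝ = 1 / B * ‖T0 u‖ ^ 2 := fun u => by
    rw [hAv, real_inner_smul_right, ← hadj0, real_inner_self_eq_norm_sq]
  have hqA' : ∀ u, ⟪u, A' u⟫_ℝ = 1 / B * ‖T0t u‖ ^ 2 := fun u => by
    rw [hA'v, real_inner_smul_right, real_inner_comm, hadj0, real_inner_self_eq_norm_sq]
  have hscale : ∀ {a b : ℝ}, 0 ≤ a → a ≤ Real.sqrt B * b → 1 / B * a ^ 2 ≤ b ^ 2 := by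
    intro a b ha hab
    rw [one_div_mul_eq_div, div_le_iff₀ hB]
    nlinarith [mul_self_le_mul_self ha hab]
  have hA0 : ∀ u, 0 ≤ ⟪u, A u⟫_ℝ := fun u => by rw [hqA]; positivity
  have hA1 : ∀ u, ⟪u, A u⟫_ℝ ≤ ⟪u, u⟫_ℝ := fun u => by
    rw [hqA, real_inner_self_eq_norm_sq]; exact hscale (norm_nonneg _) (hT1 u)
  have hA'0 : ∀ u, 0 ≤ ⟪u, A' u⟫_ℝ := fun u => by rw [hqA']; positivity
  have hA'1 : ∀ u, ⟪u, A' u⟫_ℝ ≤ ⟪u, u⟫_ℝ := fun u => by
    rw [hqA', real_inner_self_eq_norm_sq]; exact hscale (norm_nonneg _) (hT2 u)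
  have hAs : A.IsSymmetric := fun u w => by
    rw [hAv, hAv, real_inner_smul_left, real_inner_smul_right, ← hadj0, real_inner_comm,
      ← hadj0, real_inner_comm]
  have hA's : A'.IsSymmetric := fun u w => by
    rw [hA'v, hA'v, real_inner_smul_left, real_inner_smul_right, hadj0, real_inner_comm,
      ← hadj0, real_inner_comm]
  -- `F` and `G`
  set Gop : Module.End ℝ (LVec Ω Unit) := (1 / B) • aeval A' (geo m) with hGop
  obtain ⟨LG₀, hLG₀⟩ := exists_aeval LA' (geo m)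
  set LG : LOp T Unit Unit := lsmul (1 / B) LG₀ with hLG
  have hLGop : op LG = Gop := by rw [hLG, op_lsmul, hLG₀, hGop, hA']
  have hGs : Gop.IsSymmetric := fun u w => by
    simp only [hGop, LinearMap.smul_apply, real_inner_smul_left, real_inner_smul_right,
      isSymmetric_aeval hA's (geo m) u w]
  obtain ⟨LF, hLF⟩ := exists_aeval LA (lev m)
  set F : Module.End ℝ (LVec Ω (Fin r)) := op LF with hF
  have hFaev : F = aeval A (lev m) := hLF
  have hFs : F.IsSymmetric := hFaev ▸ isSymmetric_aeval hAs _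
  have hint : ∀ u, T0 (aeval A (geo m) u) = aeval A' (geo m) (T0 u) :=
    aeval_intertwine (fun u => by rw [hAv, hA'v, map_smul]) _
  have hFv : ∀ u, F u = T0t (Gop (T0 u)) := fun u => by
    rw [hFaev, ← X_mul_geo, aeval_mul_apply', aeval_X, hAv, hint, hGop, LinearMap.smul_apply,
      map_smul]
  have hF1 : ∀ u, ‖F u‖ ≤ ‖u‖ := fun u => by
    have h := aeval_form_le hAs hA0 hA1 (p := lev m * lev m) (q := 1)
      (fun a ha => by
        obtain ⟨l0, l1⟩ := lev_bounds m ha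
        simp only [eval_mul, eval_one]
        exact mul_le_one₀ l1 l0 l1) u
    rw [aeval_mul_apply', map_one, ← hFaev, ← hFs u (F u), real_inner_self_eq_norm_sq] at h
    simp only [Module.End.one_apply, real_inner_self_eq_norm_sq] at h
    exact (sq_le_sq₀ (norm_nonneg _) (norm_nonneg _)).1 h
  set K : LVec Ω Unit →ₗ[ℝ] LVec Ω (Fin r) := T0t ∘ₗ Gop with hK
  have hK1 : ∀ u, ‖K u‖ ^ 2 ≤ (m : ℝ) / B * ‖u‖ ^ 2 := fun u => by
    have h := aeval_form_le hA's hA'0 hA'1 (p := geo m * (X * geo m)) (q := C (m : ℝ))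
      (fun a ha => by
        simp only [eval_mul, eval_X, eval_C]
        nlinarith [mul_geo_sq_le m ha]) u
    rw [aeval_mul_apply', aeval_mul_apply', aeval_X, ← isSymmetric_aeval hA's (geo m) u,
      hqA', aeval_C, Module.algebraMap_end_apply, real_inner_smul_right,
      real_inner_self_eq_norm_sq] at h
    have e : ‖K u‖ ^ 2 = (1 / B) * (1 / B * ‖T0t (aeval A' (geo m) u)‖ ^ 2) := by
      simp only [hK, hGop, LinearMap.comp_apply, LinearMap.smul_apply, map_smul, norm_smul,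
        Real.norm_eq_abs, mul_pow, sq_abs]
      ring
    rw [e]
    calc _ ≤ 1 / B * ((m : ℝ) * ‖u‖ ^ 2) := mul_le_mul_of_nonneg_left h (by positivity)
      _ = _ := by ring
  -- the soft row set
  refine ⟨LF, LG, hFs, hF1, hLGop ▸ hGs, fun u => ?_, fun u => ?_, fun x j => ?_⟩
  · rw [hLGop]; exact hK1 u
  · rw [hLGop]; exact hFv u
  · have h := lev_diag hD Tm hAv hAs hA0 hA1 (m := m) hd x j
    rw [← hFaev] at h
    exact h

/-- arithmetic of the pointwise bound -/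
lemma point_arith {F W a b res h e d c ε n : ℝ} (hP : F ≤ 2 * W + 6 * a + 6 / 5 * b)
    (hd : d ≤ F + n) (ha : a ≤ c * ε) (hb : b ≤ 2 * res + 2 * h) (hW : 0 ≤ W)
    (e0 : 0 ≤ e) (e1 : e ≤ 1) :
    e ^ 2 * d ≤ 2 * W + 12 / 5 * (e ^ 2 * res) + 12 / 5 * (e ^ 2 * h)
      + (6 * (c * ε) + n) * e ^ 2 := by
  have h1 : d ≤ 2 * W + 12 / 5 * res + 12 / 5 * h + (6 * (c * ε) + n) := by linarith
  have hee : e ^ 2 ≤ 1 := pow_le_one₀ e0 e1
  nlinarith [mul_le_mul_of_nonneg_left h1 (sq_nonneg e), mul_le_mul_of_nonneg_right hee hW]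

/-- arithmetic of the summed bound -/
lemma sum_arith {lhs W R H k tr ta tb tres c ε n rr L G : ℝ} (hk : 1 / 2 ≤ k) (hG : 1 ≤ G)
    (htr : 0 ≤ tr) (hc : 0 ≤ c) (hR : 0 ≤ R) (hH : 0 ≤ H) (hW : W ≤ 4 * G * tr)
    (hRs : R ≤ k * tres) (hHs : H ≤ k * tb)
    (h : lhs ≤ 2 * W + 12 / 5 * c * R + 12 / 5 * H + rr * ((6 * (c * (ε * L)) + n) * (k * ta))) :
    lhs ≤ k * (16 * G * tr + 4 * tb + 4 * c * tres + n * rr * ta)
      + ε * (6 * c * L * rr * k * ta) := by
  have h1 : 8 * G * tr ≤ k * (16 * G * tr) := by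
    have : 0 ≤ G * tr := mul_nonneg (by linarith) htr
    nlinarith
  have h2 : 12 / 5 * c * R ≤ 4 * c * (k * tres) := by
    nlinarith [mul_le_mul_of_nonneg_left hRs hc, mul_nonneg hc hR]
  nlinarith

/-- removal of an error proportional to `ε` -/
lemma le_of_eps {a b K : ℝ} (h : ∀ ε > 0, a ≤ b + ε * K) : a ≤ b := by
  refine le_of_forall_pos_le_add fun η hη => ?_
  have h1 := h (η / (|K| + 1)) (by positivity)
  have h2 : η / (|K| + 1) * K ≤ η := by
    rw [div_mul_eq_mul_div, div_le_iff₀ (by positivity)]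
    nlinarith [le_abs_self K]
  linarith

/-- the weighted rank bound -/
theorem rankSpec (hS : SepSpec T) (hD : DensSpec T) : RankSpec T := by
  intro r Tm H Tb Tres rows Λ res hb B G n m d hB hG hrows hΛ hTm hid hTb hH hres hd
  obtain ⟨LF, LG, hFs, hF1, hGs, hK1, hFv, hdlev⟩ := filter_exists hD Tm hB hTm m hd
  set F : Module.End ℝ (LVec Ω (Fin r)) := op LF with hF
  set Gop : Module.End ℝ (LVec Ω Unit) := op LG with hGop
  set T0 := op (lift Tm) with hT0
  set T0t := op (ltp (lift Tm)) with hT0t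
  have hadj0 : ∀ u w, ⟪T0 u, w⟫_ℝ = ⟪u, T0t w⟫_ℝ := op_ltp (lift Tm)
  set K : LVec Ω Unit →ₗ[ℝ] LVec Ω (Fin r) := T0t ∘ₗ Gop with hK
  replace hK1 : ∀ u, ‖K u‖ ^ 2 ≤ (m : ℝ) / B * ‖u‖ ^ 2 := hK1
  set rF : (Ω × ℝ) →ᵇ ℝ := rowSet G Λ rows with hrF
  have hrows01 := fun b => idem_zero_or_one hrows b
  have hrF1 : ∀ x, |rF x| ≤ 1 := fun x => by
    obtain ⟨e0, e1⟩ := eFun_bounds ((4 * G) • Λ) x
    rw [hrF, rowSet, BoundedContinuousFunction.coe_mul, Pi.mul_apply, lc_apply]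
    rcases hrows01 x.1 with h | h
    · simp [h]
    · rw [h, mul_one, abs_of_nonneg e0]; exact e1
  set R := op (ldiag (T := T) fun _ : Unit => rF) with hR
  set ML : LOp T Unit (Fin r) := lmul (ldiag fun _ => rF) (lmul LG (lift Tm)) with hML
  have hMLv : ∀ u, op ML u = R (Gop (T0 u)) := fun u => by
    rw [hML, op_lmul, op_lmul, LinearMap.comp_apply, LinearMap.comp_apply]
  have hMLt : op (ltp ML) = K ∘ₗ R := op_ltp_unique fun u w => by
    rw [hMLv, hR, op_ldiag_symm (T := T) (fun _ : Unit => rF) (Gop (T0 u)) w, ← hR, hGs, hadj0]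
    rfl
  have hMtle : ∀ w, ‖op (ltp ML) w‖ ^ 2 ≤ (m : ℝ) / B * ‖w‖ ^ 2 := fun w => by
    rw [hMLt, LinearMap.comp_apply]
    refine (hK1 _).trans (mul_le_mul_of_nonneg_left ?_ (by positivity))
    exact (sq_le_sq₀ (norm_nonneg _) (norm_nonneg _)).2
      (norm_op_ldiag_le _ (fun _ => hrF1) w)
  have hMcut : CutL ML := by
    refine CutL.lmul_left (fun t ht => ?_) _
    obtain ⟨j, -, rfl⟩ := List.mem_map.1 ht
    simpa [hrF, rowSet] using (cut_eFun ((4 * G) • Λ)).mul_right _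
  obtain ⟨fH, hfHc, hfHe, hfHs⟩ := weighted_square hS hD H hΛ hb hH
  obtain ⟨fR, hfRc, hfRe, hfRs⟩ := weighted_square hS hD Tres hΛ (fun _ => res) (fun _ => hres)
  have hidop : ∀ u, T0 u + T0 (op (lift H) u) = op (lift Tb) u + op (lift Tres) u := fun u => by
    have h := op_lift_eq_add hD hid
    rw [lift_add, op_append, lift_mul, op_lmul] at h
    exact LinearMap.congr_fun h u
  have main : ∀ ε > 0, kap * T.tau (Λ * ∑ j, d j) ≤ kap * (16 * G * T.tau (Λ * rows)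
      + 4 * (∑ j, T.tau (hb j)) + 4 * ((m : ℝ) / B) * T.tau res
      + 2 * n / (m + 1) * r * T.tau Λ)
      + ε * (6 * ((m : ℝ) / B) * bnd (lift Tb) ^ 2 * r * kap * T.tau Λ) := by
    intro ε hε
    obtain ⟨LW, hWc, hWt1, hWk, hclose⟩ :=
      polar_exists ML (c := (m : ℝ) / B) (by positivity) hMtle hε
    have hWcut : CutL LW := hWc hMcut
    have hkill : ∀ x, rF x = 0 → op (ltp LW) (del (x, ()) 1) = 0 := fun x hx => by
      refine hWk _ ?_
      rw [hMLt, LinearMap.comp_apply, hR, op_ldiag]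
      show K (rF x • _) = 0
      rw [hx, zero_smul, map_zero]
    have hfWs := row_mass hS hD hG hrows hΛ hWcut hWt1 hkill hFs hF1
    have hWFcut : CutL (lmul LW LF) := hWcut.lmul_left _
    set fW : Fin r → (Ω × ℝ) →ᵇ ℝ :=
      fun j => dg (lmul (ltp (lmul LW LF)) (lmul LW LF)) j with hfW
    have hfWe : ∀ j x, fW j x = ‖op LW (F (del (x, j) 1))‖ ^ 2 := fun j x => by
      show dg _ j x = _
      rw [dg_eq hS hD, op_lmul, LinearMap.comp_apply, ← op_ltp, real_inner_self_eq_norm_sq,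
        op_lmul, LinearMap.comp_apply]
    have hfWc : ∀ j, Cut (fW j) := fun j => cut_dg (hWFcut.lmul_right _) j
    -- pointwise
    set cst : ℝ := 6 * ((m : ℝ) / B * (ε * bnd (lift Tb) ^ 2)) + 2 * n / (m + 1) with hcst
    have hpt : ∀ j x, eFun Λ x ^ 2 * d j x.1 ≤ 2 * fW j x + (12 / 5 * ((m : ℝ) / B)) * fR j x
        + (12 / 5 : ℝ) * fH j x + cst * eFun Λ x ^ 2 := by
      intro j x
      simp only [hfWe, hfRe, hfHe]
      obtain ⟨e0, e1⟩ := eFun_bounds Λ x
      have hn0 : ∀ a : LVec Ω (Fin r), 0 ≤ ‖op LW a‖ ^ 2 := fun a => sq_nonneg _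
      set e := eFun Λ x with he
      by_cases hex : e = 0
      · simp only [hex, zero_mul, mul_zero, zero_pow two_ne_zero, add_zero]
        positivity
      set δ : LVec Ω (Fin r) := del (x, j) 1 with hδ
      have hFd : F δ = op (ltp ML) (op (lift Tb) δ) +
          (K (op (lift Tres) δ) - F (op (lift H) δ)) := by
        have h1 : T0 δ = op (lift Tb) δ + op (lift Tres) δ - T0 (op (lift H) δ) :=
          eq_sub_of_add_eq (hidop δ)
        rw [hMLt, LinearMap.comp_apply, hR, hrF, rowSet_fix Tb hTb x j hex, hFv, hFv, h1]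
        simp only [hK, LinearMap.comp_apply, map_sub, map_add]
        abel
      have hP := projection_bound (op_ltp LW) hWt1 (op (ltp ML) (op (lift Tb) δ))
        (K (op (lift Tres) δ) - F (op (lift H) δ)) (F δ) hFd
      have hC := hclose (op (lift Tb) δ)
      have hB1 : ‖op (lift Tb) δ‖ ^ 2 ≤ bnd (lift Tb) ^ 2 :=
        (sq_le_sq₀ (norm_nonneg _) (bnd_nonneg _)).2 (norm_op_del_le _ _)
      have hB2' : (m : ℝ) / B * (ε * ‖op (lift Tb) δ‖ ^ 2) ≤
          (m : ℝ) / B * (ε * bnd (lift Tb) ^ 2) := by gcongr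
      have hr2 : ‖K (op (lift Tres) δ) - F (op (lift H) δ)‖ ^ 2 ≤
          2 * ((m : ℝ) / B * ‖op (lift Tres) δ‖ ^ 2) + 2 * ‖op (lift H) δ‖ ^ 2 := by
        have := norm_sub_le (K (op (lift Tres) δ)) (F (op (lift H) δ))
        nlinarith [hK1 (op (lift Tres) δ), hF1 (op (lift H) δ), norm_nonneg (F (op (lift H) δ)),
          sq_nonneg (‖K (op (lift Tres) δ)‖ - ‖F (op (lift H) δ)‖),
          norm_nonneg (K (op (lift Tres) δ) - F (op (lift H) δ))]
      have := point_arith (n := 2 * (n : ℝ) / (m + 1)) (c := (m : ℝ) / B) hP (hdlev x j)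
        (hC.trans hB2') hr2 (hn0 (F δ)) e0 e1
      rw [hcst]
      linarith
    have hsum := rank_combine (T := T) hΛ hfWc hfRc hfHc hpt
    have hrows0 : 0 ≤ T.tau (Λ * rows) := T.tau_nonneg fun b => by
      show 0 ≤ Λ b * rows b
      rcases hrows01 b with h | h <;> simp [h, show (0 : ℝ) ≤ Λ b from hΛ b]
    simp only [Fintype.sum_unique] at hfRs
    exact sum_arith (le_trans (by norm_num) kap_bounds.1) hG hrows0 (by positivity)
      (Finset.sum_nonneg fun j _ => ltr_nonneg (hfRc j) fun x => by rw [hfRe]; positivity)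
      (Finset.sum_nonneg fun j _ => ltr_nonneg (hfHc j) fun x => by rw [hfHe]; positivity)
      hfWs hfRs hfHs hsum
  exact le_of_mul_le_mul_left (le_of_eps main) (lt_of_lt_of_le (by norm_num) kap_bounds.1)

end Vale.Agent.P078.T3.Rank
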