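import Mathlib
import Vale.Agent.P078.Type3.Rank.Main

/-! The rank bound from an exact inverse `1 - C` of `1 + H`: it is linear in the size of `C` on the
weighted squares, with no self-reference. -/

noncomputable section

open Classical Polynomial MeasureTheory
open scoped BoundedContinuousFunction InnerProductSpace ComplexOrder

set_option linter.unusedSectionVars false

namespace Vale.Agent.P078.T3.Rank

universe u v

variable {M : Type u} [CStarAlgebra M] [PartialOrder M] [StarOrderedRing M]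
  {Ω : Type v} [TopologicalSpace Ω] [CompactSpace Ω] [T2Space Ω]

variable {T : SMasa M Ω} {ι κ : Type}

lemma op_ltp_lmul {lab : Type} (S : LOp T ι κ) (R : LOp T κ lab) :
    op (ltp (lmul S R)) = op (ltp R) ∘ₗ op (ltp S) := op_ltp_unique fun u w => by
  rw [op_lmul, LinearMap.comp_apply, op_ltp, op_ltp]
  rfl

lemma op_ltp_lsmul (c : ℝ) (S : LOp T ι κ) : op (ltp (lsmul c S)) = c • op (ltp S) :=
  op_ltp_unique fun u w => by
    rw [op_lsmul, LinearMap.smul_apply, real_inner_smul_left, op_ltp, LinearMap.smul_apply,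
      real_inner_smul_right]

/-- the weighted square of a column -/
def sqFun [Fintype κ] (S : GOp T ι κ) (Λ : C(Ω, ℝ)) (j : κ) : (Ω × ℝ) →ᵇ ℝ :=
  dg (lmul (ltp (lift S)) (lmul (lift S) (ldiag fun _ => eFun Λ * eFun Λ))) j

lemma cutL_sq [Fintype κ] (S : GOp T ι κ) (Λ : C(Ω, ℝ)) :
    CutL (lmul (lift S) (ldiag (T := T) fun _ : κ => eFun Λ * eFun Λ)) := by
  refine CutL.lmul_right _ fun t ht => ?_
  obtain ⟨j, -, rfl⟩ := List.mem_map.1 ht
  simpa using (cut_eFun Λ).mul_right _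

lemma cut_sqFun [Fintype κ] (S : GOp T ι κ) (Λ : C(Ω, ℝ)) (j : κ) : Cut (sqFun S Λ j) :=
  cut_dg ((cutL_sq S Λ).lmul_right _) j

lemma sqFun_apply [Fintype κ] (hS : SepSpec T) (hD : DensSpec T) (S : GOp T ι κ) (Λ : C(Ω, ℝ))
    (j : κ) (x : Ω × ℝ) :
    sqFun S Λ j x = eFun Λ x ^ 2 * ‖op (lift S) (del (x, j) 1)‖ ^ 2 := by
  show dg _ j x = _
  rw [dg_eq hS hD, op_lmul, LinearMap.comp_apply, ← op_ltp, op_lmul, LinearMap.comp_apply,
    op_ldiag, map_smul, real_inner_smul_right, real_inner_self_eq_norm_sq,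
    BoundedContinuousFunction.coe_mul, Pi.mul_apply, pow_two (eFun Λ x)]

/-- comparison of the weighted squares of two operators -/
lemma sqFun_sum_le [Fintype ι] [Fintype κ] (hS : SepSpec T) (hD : DensSpec T) (S S' : GOp T ι κ)
    {Λ : C(Ω, ℝ)} (hΛ : 0 ≤ Λ) {c : ℝ}
    (h : ∀ i b, ((S'.mul (GOp.diag fun _ => Λ)).wgt.mul S'.tp).ker (b, i) (b, i)
      ≤ c * ((S.mul (GOp.diag fun _ => Λ)).wgt.mul S.tp).ker (b, i) (b, i)) :
    ∑ j, ltr T (sqFun S' Λ j) ≤ c * ∑ j, ltr T (sqFun S Λ j) := by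
  simp only [sqFun]
  rw [← sum_ltr_dg_lmul_comm hS hD (cutL_sq S' Λ), ← sum_ltr_dg_lmul_comm hS hD (cutL_sq S Λ),
    Finset.mul_sum]
  refine Finset.sum_le_sum fun i _ => ?_
  simp only [ltr]
  rw [← smul_eq_mul c, ← map_smul]
  refine T.tau_mono fun b => ?_
  show intC _ b ≤ c * intC _ b
  rw [intC_dg_weighted hS S' hΛ, intC_dg_weighted hS S hΛ, mul_left_comm]
  exact mul_le_mul_of_nonneg_left (h i b) (by linarith [kap_bounds.1])

/-- the soft projection on the range of `Tm^t` is a graph operator -/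
lemma levOp_filter {r : ℕ} (hD : DensSpec T) (Tm : GOp T Unit (Fin r)) {B : ℝ} (hB : 0 < B)
    (hTm : OpBd Tm.ker (Real.sqrt B)) {n : ℕ} (m : ℕ) {d : Fin r → C(Ω, ℝ)}
    (hd : ∀ j b, d j b = (GOp.levOp Tm B n).ker (b, j) (b, j)) :
    ∃ LG : LOp T Unit Unit, (op LG).IsSymmetric ∧
      (∀ u, ‖op (ltp (lift Tm)) (op LG u)‖ ^ 2 ≤ (m : ℝ) / B * ‖u‖ ^ 2) ∧
      (∀ u, op (lift (GOp.levOp Tm B m)) u
        = op (ltp (lift Tm)) (op LG (op (lift Tm) u))) ∧
      (op (lift (GOp.levOp Tm B m))).IsSymmetric ∧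
      (∀ u, ‖op (lift (GOp.levOp Tm B m)) u‖ ≤ ‖u‖) ∧
      ∀ (x : Ω × ℝ) (j : Fin r),
        d j x.1 ≤ ‖op (lift (GOp.levOp Tm B m)) (del (x, j) 1)‖ ^ 2 + 2 * n / (m + 1) := by
  obtain ⟨hT1, hT2⟩ := norm_lift_le hD (Real.sqrt_nonneg B) hTm
  set T0 := op (lift Tm) with hT0
  set T0t := op (ltp (lift Tm)) with hT0t
  have hadj0 : ∀ u w, ⟪T0 u, w⟫_ℝ = ⟪u, T0t w⟫_ℝ := op_ltp (lift Tm)
  set A : Module.End ℝ (LVec Ω (Fin r)) := (1 / B) • (T0t ∘ₗ T0) with hA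
  set A' : Module.End ℝ (LVec Ω Unit) := (1 / B) • (T0 ∘ₗ T0t) with hA'
  have hAv : ∀ u, A u = (1 / B) • T0t (T0 u) := fun u => rfl
  have hA'v : ∀ u, A' u = (1 / B) • T0 (T0t u) := fun u => rfl
  have hqA : ∀ u, ⟪u, A u⟫_ℝ = 1 / B * ‖T0 u‖ ^ 2 := fun u => by
    rw [hAv, real_inner_smul_right, ← hadj0, real_inner_self_eq_norm_sq]
  have hqA' : ∀ u, ⟪u, A' u⟫_ℝ = 1 / B * ‖T0t u‖ ^ 2 := fun u => by
    rw [hA'v, real_inner_smul_right, real_inner_comm, hadj0, real_inner_self_eq_norm_sq]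
  have hscale : ∀ {a b : ℝ}, 0 ≤ a → a ≤ Real.sqrt B * b → 1 / B * a ^ 2 ≤ b ^ 2 := by
    intro a b ha hab
    rw [one_div_mul_eq_div, div_le_iff₀ hB]
    nlinarith [mul_self_le_mul_self ha hab, Real.mul_self_sqrt hB.le]
  have hA0 : ∀ u, 0 ≤ ⟪u, A u⟫_ℝ := fun u => by rw [hqA]; positivity
  have hA1 : ∀ u, ⟪u, A u⟫_ℝ ≤ ⟪u, u⟫_ℝ := fun u => by
    rw [hqA, real_inner_self_eq_norm_sq]; exact hscale (norm_nonneg _) (hT1 u)
  have hA'0 : ∀ u, 0 ≤ ⟪u, A' u⟫_ℝ := fun u => by rw [hqA']; positivity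
  have hA'1 : ∀ u, ⟪u, A' u⟫_ℝ ≤ ⟪u, u⟫_ℝ := fun u => by
    rw [hqA', real_inner_self_eq_norm_sq]; exact hscale (norm_nonneg _) (hT2 u)
  have hAs : A.IsSymmetric := fun u w => by
    rw [hAv, hAv, real_inner_smul_left, real_inner_smul_right, ← hadj0, real_inner_comm,
      ← hadj0, real_inner_comm]
  have hA's : A'.IsSymmetric := fun u w => by
    rw [hA'v, hA'v, real_inner_smul_left, real_inner_smul_right, hadj0, real_inner_comm,
      ← hadj0, real_inner_comm]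
  have hy : op (lift (GOp.yOp Tm B)) = (1 - A : Module.End ℝ (LVec Ω (Fin r))) := by
    refine LinearMap.ext fun u => ?_
    rw [GOp.yOp, lift_add, op_append, op_lift_one, lift_smul, op_lsmul, lift_mul, lift_tp,
      op_lmul]
    simp only [LinearMap.id_coe, id_eq, LinearMap.smul_apply,
      LinearMap.comp_apply, neg_smul, LinearMap.sub_apply,
      Module.End.one_apply, hAv, ← sub_eq_add_neg, hT0, hT0t]
  have hlev : op (lift (GOp.levOp Tm B m)) = aeval A (lev m) := by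
    rw [GOp.levOp, lift_add, op_append, op_lift_one, lift_smul, op_lsmul, op_lift_pow, hy, lev,
      map_sub, map_one, map_pow, map_sub, map_one, aeval_X, neg_one_smul, ← sub_eq_add_neg]
    rfl
  obtain ⟨LG₀, hLG₀⟩ := exists_aeval
    (lsmul (1 / B) (lmul (lift Tm) (ltp (lift Tm)))) (geo m)
  rw [op_lsmul, op_lmul, ← hT0, ← hT0t, ← hA'] at hLG₀
  set LG : LOp T Unit Unit := lsmul (1 / B) LG₀
  have hLGv : ∀ u, op LG u = (1 / B) • aeval A' (geo m) u := fun u => by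
    rw [op_lsmul, hLG₀, LinearMap.smul_apply]
  have hint : ∀ u, T0 (aeval A (geo m) u) = aeval A' (geo m) (T0 u) :=
    aeval_intertwine (fun u => by rw [hAv, hA'v, map_smul]) _
  refine ⟨LG, fun u w => ?_, fun u => ?_, fun u => ?_, hlev ▸ isSymmetric_aeval hAs _, fun u => ?_,
    fun x j => hlev ▸ lev_diag hD Tm hAv hAs hA0 hA1 hd x j⟩
  · rw [hLGv, hLGv, real_inner_smul_left, real_inner_smul_right,
      isSymmetric_aeval hA's (geo m) u w]
  · have h := aeval_form_le hA's hA'0 hA'1 (p := geo m * (X * geo m)) (q := C (m : ℝ))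
      (fun a ha => by
        simp only [eval_mul, eval_X, eval_C]
        nlinarith [mul_geo_sq_le m ha]) u
    rw [aeval_mul_apply', aeval_mul_apply', aeval_X, ← isSymmetric_aeval hA's (geo m) u,
      hqA', aeval_C, Module.algebraMap_end_apply, real_inner_smul_right,
      real_inner_self_eq_norm_sq] at h
    rw [hLGv, map_smul, norm_smul, Real.norm_eq_abs, mul_pow, sq_abs]
    calc (1 / B) ^ 2 * ‖T0t (aeval A' (geo m) u)‖ ^ 2
        = 1 / B * (1 / B * ‖T0t (aeval A' (geo m) u)‖ ^ 2) := by ring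
      _ ≤ 1 / B * ((m : ℝ) * ‖u‖ ^ 2) := mul_le_mul_of_nonneg_left h (by positivity)
      _ = _ := by ring
  · rw [hlev, ← X_mul_geo, aeval_mul_apply', aeval_X, hAv, hint, hLGv, map_smul]
  · have h := aeval_form_le hAs hA0 hA1 (p := lev m * lev m) (q := 1)
      (fun a ha => by
        obtain ⟨l0, l1⟩ := lev_bounds m ha
        simp only [eval_mul, eval_one]
        exact mul_le_one₀ l1 l0 l1) u
    rw [aeval_mul_apply', map_one, ← isSymmetric_aeval hAs (lev m) u, ← hlev,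
      real_inner_self_eq_norm_sq] at h
    simp only [Module.End.one_apply, real_inner_self_eq_norm_sq] at h
    exact (sq_le_sq₀ (norm_nonneg _) (norm_nonneg _)).1 h

/-- the weighted squares of an operator on the soft row set -/
lemma row_square (hS : SepSpec T) (hD : DensSpec T) {r : ℕ} (Tm Tb Tres : GOp T Unit (Fin r))
    (ZG : GOp T (Fin r) (Fin r)) (LG : LOp T Unit Unit) {rows Λ : C(Ω, ℝ)} {B G ρ : ℝ} (m : ℕ)
    (hB : 0 < B) (hG : 1 ≤ G) (hρ : 0 ≤ ρ) (hrows : rows * rows = rows) (hΛ : 0 ≤ Λ)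
    (hres : OpBd Tres.ker ρ) (hGs : (op LG).IsSymmetric)
    (hK1 : ∀ u, ‖op (ltp (lift Tm)) (op LG u)‖ ^ 2 ≤ (m : ℝ) / B * ‖u‖ ^ 2)
    (hZKv : ∀ u, op (lift ZG) u
      = op (ltp (lift Tm)) (op LG (op (lift Tb) u + op (lift Tres) u)))
    (hZt : ∀ u, ‖op (ltp (lift ZG)) u‖ ≤ 2 * ‖u‖)
    (hTb : ∀ t ∈ Tb, ∀ b, t.coef b * t.g.ran b ≠ 0 →
      rows b = 1 ∧ Λ (t.g.toDom b) * t.g.dens b ≤ 2 * G * Λ b) :
    ∑ j, ltr T (sqFun ZG Λ j) ≤ 32 * G * T.tau (Λ * rows) +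
      r * (6 / 5 * ((m : ℝ) / B * ρ ^ 2) * (kap * T.tau Λ)) := by
  obtain ⟨hR1, -⟩ := norm_lift_le hD hρ hres
  have hrows01 := fun b => idem_zero_or_one hrows b
  set K : LVec Ω Unit →ₗ[ℝ] LVec Ω (Fin r) := op (ltp (lift Tm)) ∘ₗ op LG with hK
  replace hK1 : ∀ u, ‖K u‖ ^ 2 ≤ (m : ℝ) / B * ‖u‖ ^ 2 := hK1
  replace hZKv : ∀ u, op (lift ZG) u = K (op (lift Tb) u + op (lift Tres) u) := hZKv
  set P := ∑ j, ltr T (sqFun ZG Λ j) with hP
  refine le_of_eps (K := r * (6 * ((m : ℝ) / B * bnd (lift Tb) ^ 2) * (kap * T.tau Λ)))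
    fun ε hε => ?_
  set rF : (Ω × ℝ) →ᵇ ℝ := rowSet G Λ rows with hrF
  have hrF1 : ∀ x, |rF x| ≤ 1 := fun x => by
    obtain ⟨e0, e1⟩ := eFun_bounds ((4 * G) • Λ) x
    rw [hrF, rowSet, BoundedContinuousFunction.coe_mul, Pi.mul_apply, lc_apply]
    rcases hrows01 x.1 with h | h
    · simp [h]
    · rw [h, mul_one, abs_of_nonneg e0]; exact e1
  set R := op (ldiag (T := T) fun _ : Unit => rF) with hR
  set ML : LOp T Unit (Fin r) := lmul (ldiag fun _ => rF) (lmul LG (lift Tm)) with hML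
  have hMLt : op (ltp ML) = K ∘ₗ R := op_ltp_unique fun u w => by
    rw [hML, op_lmul, op_lmul, LinearMap.comp_apply, LinearMap.comp_apply,
      op_ldiag_symm (T := T) (fun _ : Unit => rF) _ w, ← hR, hGs, op_ltp]
    rfl
  have hMtle : ∀ w, ‖op (ltp ML) w‖ ^ 2 ≤ (m : ℝ) / B * ‖w‖ ^ 2 := fun w => by
    rw [hMLt, LinearMap.comp_apply]
    refine (hK1 _).trans (mul_le_mul_of_nonneg_left ?_ (by positivity))
    exact (sq_le_sq₀ (norm_nonneg _) (norm_nonneg _)).2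
      (norm_op_ldiag_le _ (fun _ => hrF1) w)
  have hMcut : CutL ML := by
    refine CutL.lmul_left (fun t ht => ?_) _
    obtain ⟨j, -, rfl⟩ := List.mem_map.1 ht
    simpa [hrF, rowSet] using (cut_eFun ((4 * G) • Λ)).mul_right _
  obtain ⟨LW, hWc, hWt1, hWk, hclose⟩ :=
    polar_exists ML (c := (m : ℝ) / B) (by positivity) hMtle hε
  set LW' : LOp T Unit (Fin r) := lsmul (1 / 2) (lmul LW (lift ZG)) with hLW'
  have hW'cut : CutL LW' := ((hWc hMcut).lmul_left _).lsmul _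
  have hW't : ∀ w, op (ltp LW') w = (1 / 2 : ℝ) • op (ltp (lift ZG)) (op (ltp LW) w) :=
    fun w => by rw [hLW', op_ltp_lsmul, op_ltp_lmul]; rfl
  have hmass := row_mass (LW := LW')
    (LF := ldiag (T := T) fun _ : Fin r => (1 : (Ω × ℝ) →ᵇ ℝ)) hS hD hG hrows hΛ hW'cut
    (fun w => by
      rw [hW't, norm_smul, Real.norm_of_nonneg (by norm_num : (0 : ℝ) ≤ 1 / 2)]
      linarith [hZt (op (ltp LW) w), hWt1 w])
    (fun x hx => by
      rw [hW't, hWk, map_zero, smul_zero]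
      rw [hMLt, LinearMap.comp_apply, hR, op_ldiag]
      show K (rF x • _) = 0
      rw [show rF x = 0 from hx, zero_smul, map_zero])
    (by rw [op_ldiag_one]; exact fun u w => rfl) (by rw [op_ldiag_one]; exact fun u => le_rfl)
  set fW : Fin r → (Ω × ℝ) →ᵇ ℝ := fun j => dg (lmul (ltp (lmul LW' (ldiag fun _ => 1)))
    (lmul LW' (ldiag fun _ => 1))) j with hfW
  have hfWe : ∀ j x, fW j x = 1 / 4 * ‖op LW (op (lift ZG) (del (x, j) 1))‖ ^ 2 := fun j x => by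
    show dg _ j x = _
    rw [dg_eq hS hD, op_lmul, LinearMap.comp_apply, ← op_ltp, real_inner_self_eq_norm_sq,
      op_lmul, op_ldiag_one, LinearMap.comp_id, hLW', op_lsmul, op_lmul, LinearMap.smul_apply,
      LinearMap.comp_apply, norm_smul, Real.norm_of_nonneg (by norm_num : (0 : ℝ) ≤ 1 / 2)]
    ring
  have hfWc : ∀ j, Cut (fW j) := fun j => cut_dg ((hW'cut.lmul_left _).lmul_right _) j
  set cst : ℝ := 6 * ((m : ℝ) / B * (ε * bnd (lift Tb) ^ 2))
    + 6 / 5 * ((m : ℝ) / B * ρ ^ 2) with hcst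
  have he2c : Cut ⇑(eFun Λ * eFun Λ) := by simpa using (cut_eFun Λ).mul_right _
  have hsum : P ≤ ∑ j, (8 * ltr T (fW j) + cst * ltr T (eFun Λ * eFun Λ)) := by
    refine Finset.sum_le_sum fun j _ => ?_
    refine (ltr_mono (cut_sqFun ZG Λ j) (g := (8 : ℝ) • fW j + cst • (eFun Λ * eFun Λ))
      (by simpa using ((hfWc j).smul 8).add (he2c.smul cst)) fun x => ?_).trans_eq ?_
    · rw [sqFun_apply hS hD]
      simp only [BoundedContinuousFunction.coe_add, BoundedContinuousFunction.coe_smul,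
        Pi.add_apply, smul_eq_mul, hfWe, BoundedContinuousFunction.coe_mul, Pi.mul_apply]
      obtain ⟨e0, e1⟩ := eFun_bounds Λ x
      have hcst0 : 0 ≤ cst := by positivity
      by_cases hex : eFun Λ x = 0
      · rw [hex]
        nlinarith [sq_nonneg ‖op LW (op (lift ZG) (del (x, j) 1))‖]
      set δ : LVec Ω (Fin r) := del (x, j) 1 with hδ
      have hfix := rowSet_fix Tb hTb x j hex
      have hP' := projection_bound (op_ltp LW) hWt1 (op (ltp ML) (op (lift Tb) δ))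
        (K (op (lift Tres) δ)) (op (lift ZG) δ) (by
          rw [hMLt, LinearMap.comp_apply, hR, hrF, hfix, hZKv, map_add])
      have hC' := hclose (op (lift Tb) δ)
      have hB1 : ‖op (lift Tb) δ‖ ^ 2 ≤ bnd (lift Tb) ^ 2 :=
        (sq_le_sq₀ (norm_nonneg _) (bnd_nonneg _)).2 (norm_op_del_le _ _)
      have hB2 : (m : ℝ) / B * (ε * ‖op (lift Tb) δ‖ ^ 2) ≤
          (m : ℝ) / B * (ε * bnd (lift Tb) ^ 2) := by gcongr
      have hR2 : ‖K (op (lift Tres) δ)‖ ^ 2 ≤ (m : ℝ) / B * ρ ^ 2 := by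
        refine (hK1 _).trans (mul_le_mul_of_nonneg_left ?_ (by positivity))
        have h1 := hR1 δ
        rw [hδ, norm_del, abs_one, mul_one] at h1
        exact (sq_le_sq₀ (norm_nonneg _) hρ).2 h1
      have hz : ‖op (lift ZG) δ‖ ^ 2 ≤ 2 * ‖op LW (op (lift ZG) δ)‖ ^ 2 + cst := by
        rw [hcst]; linarith
      have hee : eFun Λ x ^ 2 ≤ 1 := pow_le_one₀ e0 e1
      nlinarith [mul_le_mul_of_nonneg_left hz (sq_nonneg (eFun Λ x)),
        mul_le_mul_of_nonneg_right hee (sq_nonneg ‖op LW (op (lift ZG) δ)‖)]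
    · rw [ltr_add (by simpa using (hfWc j).smul 8) (he2c.smul cst), ltr_smul (hfWc j),
        ltr_smul he2c]
  have hltre : ltr T (eFun Λ * eFun Λ) = kap * T.tau Λ := by
    rw [ltr, intC_eFun_sq hΛ, map_smul, smul_eq_mul]
  rw [Finset.sum_add_distrib, ← Finset.mul_sum, hltre, Finset.sum_const, Finset.card_univ,
    Fintype.card_fin, nsmul_eq_mul, hcst] at hsum
  linarith [hmass]

/-- the weighted rank bound, linear in the size of the inverse -/
theorem rank_linear (hS : SepSpec T) (hD : DensSpec T) {r : ℕ} (Tm : GOp T Unit (Fin r))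
    (H C E : GOp T (Fin r) (Fin r)) (Tb Tres : GOp T Unit (Fin r)) (rows Λ : C(Ω, ℝ))
    {B G ρ e c : ℝ} (n m : ℕ) (d : Fin r → C(Ω, ℝ))
    (hB : 0 < B) (hG : 1 ≤ G) (hρ : 0 ≤ ρ) (he : 0 ≤ e) (hc : 0 ≤ c)
    (hrows : rows * rows = rows) (hΛ : 0 ≤ Λ)
    (hTm : OpBd Tm.ker (Real.sqrt B)) (hH : OpBd H.ker 1) (hE : OpBd E.ker e)
    (hres : OpBd Tres.ker ρ)
    (hid : ∀ x y, (Tm.add (Tm.mul H)).ker x y = Tb.ker x y + Tres.ker x y)
    (hTb : ∀ t ∈ Tb, ∀ b, t.coef b * t.g.ran b ≠ 0 →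
      rows b = 1 ∧ Λ (t.g.toDom b) * t.g.dens b ≤ 2 * G * Λ b)
    (hrec : ∀ x y, H.ker x y = C.ker x y + (H.mul C).ker x y + E.ker x y)
    (hC : ∀ (Z : GOp T (Fin r) (Fin r)) i b,
      (((Z.mul C).mul (GOp.diag fun _ => Λ)).wgt.mul (Z.mul C).tp).ker (b, i) (b, i)
        ≤ c * ((Z.mul (GOp.diag fun _ => Λ)).wgt.mul Z.tp).ker (b, i) (b, i))
    (hd : ∀ j b, d j b = (GOp.levOp Tm B n).ker (b, j) (b, j)) :
    T.tau (Λ * ∑ j, d j) ≤ 120 * (1 + c) * G * T.tau (Λ * rows)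
      + (4 * (1 + c) * ((m : ℝ) / B) * ρ ^ 2 + 3 * e ^ 2 + 2 * n / (m + 1)) * r * T.tau Λ := by
  obtain ⟨LG, hGs, hK1, hFv, hFs, hF1, hdlev⟩ := levOp_filter hD Tm hB hTm m hd
  set F : Module.End ℝ (LVec Ω (Fin r)) := op (lift (GOp.levOp Tm B m)) with hF
  set K : LVec Ω Unit →ₗ[ℝ] LVec Ω (Fin r) := op (ltp (lift Tm)) ∘ₗ op LG with hK
  replace hK1 : ∀ u, ‖K u‖ ^ 2 ≤ (m : ℝ) / B * ‖u‖ ^ 2 := hK1
  obtain ⟨hH1, hH2⟩ := norm_lift_le hD zero_le_one hH
  obtain ⟨hE1, -⟩ := norm_lift_le hD he hE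
  set ZG : GOp T (Fin r) (Fin r) :=
    (GOp.levOp Tm B m).mul ((GOp.diag fun _ => 1).add H) with hZG
  have hZv : ∀ u, op (lift ZG) u = F (u + op (lift H) u) := fun u => by
    rw [hZG, lift_mul, op_lmul, lift_add, op_append, op_lift_one]
    rfl
  have hZKv : ∀ u, op (lift ZG) u = K (op (lift Tb) u + op (lift Tres) u) := fun u => by
    have h := op_lift_eq_add hD hid
    rw [lift_add, op_append, lift_mul, op_lmul] at h
    rw [hZv, hFv, map_add]
    exact congrArg K (LinearMap.congr_fun h u)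
  have hZt : ∀ u, ‖op (ltp (lift ZG)) u‖ ≤ 2 * ‖u‖ := fun u => by
    have e1 : op (ltp (lift ZG)) u = F u + op (ltp (lift H)) (F u) := by
      rw [hZG, lift_mul, op_ltp_lmul, LinearMap.comp_apply]
      have e2 : op (ltp (lift (GOp.levOp Tm B m))) = F := op_ltp_unique fun u w => hFs u w
      rw [e2, lift_add]
      simp only [ltp, List.map_append, op_append, LinearMap.add_apply]
      congr 1
      have e3 : op (ltp (lift (GOp.diag (T := T) fun _ : Fin r => 1))) = LinearMap.id :=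
        op_ltp_unique fun u w => by rw [op_lift_one]; rfl
      exact LinearMap.congr_fun e3 (F u)
    rw [e1]
    refine (norm_add_le _ _).trans ?_
    linarith [hF1 u, hH2 (F u)]
  -- `(1 + H) (1 - C) = 1 + E`
  have hrec' : ∀ u, op (lift H) u
      = op (lift C) u + op (lift H) (op (lift C) u) + op (lift E) u := fun u => by
    have h := op_lift_eq_add hD (A := H) (B := C.add (H.mul C)) (C := E) fun x y => by
      rw [hrec]; simp [GOp.ker, GOp.add]
    rw [lift_add, op_append, lift_mul, op_lmul] at h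
    exact LinearMap.congr_fun h u
  set P := ∑ j, ltr T (sqFun ZG Λ j) with hP
  have hQ : ∑ j, ltr T (sqFun (ZG.mul C) Λ j) ≤ c * P :=
    sqFun_sum_le hS hD ZG (ZG.mul C) hΛ (hC ZG)
  have hrows01 := fun b => idem_zero_or_one hrows b
  have hrows0 : 0 ≤ T.tau (Λ * rows) := T.tau_nonneg fun b => by
    show 0 ≤ Λ b * rows b
    rcases hrows01 b with h | h <;> simp [h, show (0 : ℝ) ≤ Λ b from hΛ b]
  have hkap : 0 < kap := lt_of_lt_of_le (by norm_num) kap_bounds.1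
  have hPle : P ≤ 32 * G * T.tau (Λ * rows) +
      r * (6 / 5 * ((m : ℝ) / B * ρ ^ 2) * (kap * T.tau Λ)) :=
    row_square hS hD Tm Tb Tres ZG LG m hB hG hρ hrows hΛ hres hGs hK1 hZKv hZt hTb
  -- pointwise
  have hpt : ∀ j x, eFun Λ x ^ 2 * d j x.1 ≤ 2 * sqFun ZG Λ j x + 1 * sqFun ZG Λ j x
      + 3 * sqFun (ZG.mul C) Λ j x + (3 * e ^ 2 + 2 * (n : ℝ) / (m + 1)) * eFun Λ x ^ 2 := by
    intro j x
    have hZC : ∀ u, op (lift (ZG.mul C)) u = op (lift ZG) (op (lift C) u) := fun u => by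
      rw [lift_mul ZG C, op_lmul]
      rfl
    rw [sqFun_apply hS hD, sqFun_apply hS hD, hZC]
    set δ : LVec Ω (Fin r) := del (x, j) 1 with hδ
    have hFd : F δ = op (lift ZG) δ - op (lift ZG) (op (lift C) δ) - F (op (lift E) δ) := by
      rw [hZv, hZv, ← map_sub, ← map_sub]
      congr 1
      conv_rhs => rw [hrec' δ]
      abel
    have h1 := norm_sub_le (op (lift ZG) δ - op (lift ZG) (op (lift C) δ)) (F (op (lift E) δ))
    have h2 := norm_sub_le (op (lift ZG) δ) (op (lift ZG) (op (lift C) δ))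
    rw [← hFd] at h1
    have h3 : ‖F (op (lift E) δ)‖ ≤ e := by
      refine (hF1 _).trans ((hE1 δ).trans_eq ?_)
      rw [hδ, norm_del, abs_one, mul_one]
    have h4 : ‖F δ‖ ≤ ‖op (lift ZG) δ‖ + ‖op (lift ZG) (op (lift C) δ)‖ + e := by linarith
    have h5 : ‖F δ‖ ^ 2 ≤
        3 * ‖op (lift ZG) δ‖ ^ 2 + 3 * ‖op (lift ZG) (op (lift C) δ)‖ ^ 2 + 3 * e ^ 2 := by
      nlinarith [pow_le_pow_left₀ (norm_nonneg _) h4 2,
        sq_nonneg (‖op (lift ZG) δ‖ - ‖op (lift ZG) (op (lift C) δ)‖),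
        sq_nonneg (‖op (lift ZG) δ‖ - e), sq_nonneg (‖op (lift ZG) (op (lift C) δ)‖ - e)]
    have h6 : d j x.1 ≤ ‖F δ‖ ^ 2 + 2 * (n : ℝ) / (m + 1) := hdlev x j
    nlinarith [mul_le_mul_of_nonneg_left (h6.trans (add_le_add_left h5 _))
      (sq_nonneg (eFun Λ x))]
  have hsum := rank_combine (T := T) hΛ (fun j => cut_sqFun ZG Λ j)
    (fun j => cut_sqFun ZG Λ j) (fun j => cut_sqFun (ZG.mul C) Λ j) hpt
  have h1 : kap * T.tau (Λ * ∑ j, d j) ≤ 3 * (1 + c) * P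
      + r * ((3 * e ^ 2 + 2 * (n : ℝ) / (m + 1)) * (kap * T.tau Λ)) := by
    rw [← hP] at hsum
    linarith
  have h2 := mul_le_mul_of_nonneg_left hPle (show (0 : ℝ) ≤ 3 * (1 + c) by positivity)
  have h3 : 96 * (1 + c) * G * T.tau (Λ * rows) ≤
      kap * (120 * (1 + c) * G * T.tau (Λ * rows)) := by
    have : 0 ≤ (1 + c) * G * T.tau (Λ * rows) :=
      mul_nonneg (mul_nonneg (by linarith) (by linarith)) hrows0
    nlinarith [kap_bounds.1]
  have h4 : (0 : ℝ) ≤ (1 + c) * ((m : ℝ) / B) * ρ ^ 2 * r * (kap * T.tau Λ) :=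
    mul_nonneg (by positivity) (mul_nonneg hkap.le (T.tau_nonneg hΛ))
  refine le_of_mul_le_mul_left ?_ hkap
  linarith

end Vale.Agent.P078.T3.Rank
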